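import Crest.Agent.R294.Count

/-!
Deterministic segments: every entry point has at most one exit point.
-/

set_option autoImplicit false

namespace Crest.Agent.R294

universe u

open Crest.Agent.R294.Lat

variable {Q : Type u}

/-- closure of a pair of sets under an entry-exit relation -/
def Clo (E : Q × Bool → Q × Bool → Prop) (A B : Set (Q × Bool)) : Prop :=
  ∀ n e, E n e → n ∈ (bif n.2 then A else B) → e ∈ (bif e.2 then B else A)

/-- `x` is given by a partial function from entries to exits -/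
def Fn (x : Lat (Q × Bool)) : Prop :=
  ∃ E : Q × Bool → Q × Bool → Prop, (∀ n e e', E n e → E n e' → e = e') ∧
    ∀ A B, x.r A B ↔ Clo E A B

/-- one step in the glued graph of two segments -/
def St (E1 E2 : Q × Bool → Q × Bool → Prop) (n e : ℕ × (Q × Bool)) : Prop :=
  (n.1 = (bif n.2.2 then 0 else 1) ∧ E1 n.2 e.2 ∧ e.1 = (bif e.2.2 then 1 else 0)) ∨
  (n.1 = (bif n.2.2 then 1 else 2) ∧ E2 n.2 e.2 ∧ e.1 = (bif e.2.2 then 2 else 1))

theorem St.rightUnique {E1 E2 : Q × Bool → Q × Bool → Prop}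
    (h1 : ∀ n e e', E1 n e → E1 n e' → e = e') (h2 : ∀ n e e', E2 n e → E2 n e' → e = e') :
    Relator.RightUnique (St E1 E2) := by
  rintro ⟨i, q, d⟩ ⟨j, e⟩ ⟨j', e'⟩ (⟨h3, h4, h5⟩ | ⟨h3, h4, h5⟩) (⟨h6, h7, h8⟩ | ⟨h6, h7, h8⟩)
  · obtain rfl := h1 _ _ _ h4 h7
    simp only at h5 h8
    rw [h5, h8]
  · cases d <;> simp at h3 h6 <;> omega
  · cases d <;> simp at h3 h6 <;> omega
  · obtain rfl := h2 _ _ _ h4 h7
    simp only at h5 h8
    rw [h5, h8]

theorem St.terminal {E1 E2 : Q × Bool → Q × Bool → Prop} {e : Q × Bool} {n : ℕ × (Q × Bool)}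
    (h : Relation.ReflTransGen (St E1 E2) ((bif e.2 then 2 else 0), e) n) :
    n = ((bif e.2 then 2 else 0), e) := by
  rcases h.cases_head with h | ⟨c, h, -⟩
  · exact h.symm
  · obtain ⟨q, d⟩ := e
    rcases h with ⟨h, -⟩ | ⟨h, -⟩ <;> cases d <;> simp at h

theorem St.orbit {E1 E2 : Q × Bool → Q × Bool → Prop} (Z : Set (ℕ × (Q × Bool))) :
    Clo E1 {m | ∃ z ∈ Z, Relation.ReflTransGen (St E1 E2) z (0, m)}
      {m | ∃ z ∈ Z, Relation.ReflTransGen (St E1 E2) z (1, m)} ∧
    Clo E2 {m | ∃ z ∈ Z, Relation.ReflTransGen (St E1 E2) z (1, m)}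
      {m | ∃ z ∈ Z, Relation.ReflTransGen (St E1 E2) z (2, m)} := by
  constructor
  · rintro ⟨q, d⟩ ⟨q', d'⟩ h hn
    cases d <;> cases d' <;> obtain ⟨z, hz, hp⟩ := hn <;>
      exact ⟨z, hz, hp.tail (Or.inl ⟨rfl, h, rfl⟩)⟩
  · rintro ⟨q, d⟩ ⟨q', d'⟩ h hn
    cases d <;> cases d' <;> obtain ⟨z, hz, hp⟩ := hn <;>
      exact ⟨z, hz, hp.tail (Or.inr ⟨rfl, h, rfl⟩)⟩

theorem St.last {E1 E2 : Q × Bool → Q × Bool → Prop} {z : ℕ × (Q × Bool)} {i : ℕ} {m : Q × Bool}
    (h : Relation.ReflTransGen (St E1 E2) z (i, m)) (hi : i ≠ 1) :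
    z = (i, m) ∨ i = (bif m.2 then 2 else 0) := by
  rcases h.cases_tail with h | ⟨c, -, h⟩
  · exact Or.inl h.symm
  · right
    obtain ⟨q, d⟩ := m
    rcases h with ⟨-, -, h⟩ | ⟨-, -, h⟩ <;> cases d <;> simp at h ⊢ <;> omega

theorem Fn.mul {x y : Lat (Q × Bool)} (hx : Fn x) (hy : Fn y) : Fn (x * y) := by
  obtain ⟨E1, h1, hx⟩ := hx
  obtain ⟨E2, h2, hy⟩ := hy
  refine ⟨fun n e => Relation.ReflTransGen (St E1 E2) ((bif n.2 then 0 else 2), n)
    ((bif e.2 then 2 else 0), e), ?_, fun A C => ⟨?_, ?_⟩⟩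
  · intro n e e' h h'
    rcases Relation.ReflTransGen.total_of_right_unique (St.rightUnique h1 h2) h h' with h | h
    · exact (congrArg Prod.snd (St.terminal h)).symm
    · exact congrArg Prod.snd (St.terminal h)
  · rintro ⟨B, hB1, hB2⟩ n e h hn
    rw [hx] at hB1
    rw [hy] at hB2
    let S : ℕ → Set (Q × Bool) := fun i => if i = 0 then A else if i = 1 then B else C
    have inv : ∀ z z' : ℕ × (Q × Bool), Relation.ReflTransGen (St E1 E2) z z' →
        z.2 ∈ S z.1 → z'.2 ∈ S z'.1 := by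
      intro z z' h hz
      induction h with
      | refl => exact hz
      | tail _ h ih =>
        rename_i b c _
        obtain ⟨i, q, d⟩ := b
        obtain ⟨j, q', d'⟩ := c
        rcases h with ⟨h3, h4, h5⟩ | ⟨h3, h4, h5⟩
        · have := hB1 _ _ h4
          simp only at h3 h5; subst h3 h5
          cases d <;> cases d' <;> exact this ih
        · have := hB2 _ _ h4
          simp only at h3 h5; subst h3 h5
          cases d <;> cases d' <;> exact this ih
    have := inv _ _ h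
    obtain ⟨q, d⟩ := n
    obtain ⟨q', d'⟩ := e
    cases d <;> cases d' <;> exact this hn
  · intro h
    set Z : Set (ℕ × (Q × Bool)) :=
      {z | z.1 = (bif z.2.2 then 0 else 2) ∧ z.2 ∈ (bif z.2.2 then A else C)} with hZ
    obtain ⟨h3, h4⟩ := St.orbit (E1 := E1) (E2 := E2) Z
    have hA : {m | ∃ z ∈ Z, Relation.ReflTransGen (St E1 E2) z (0, m)} ⊆ A := by
      rintro ⟨q, d⟩ ⟨⟨i, n⟩, ⟨hz1, hz2⟩, hp⟩
      rcases St.last hp (by norm_num) with h5 | h5
      · obtain ⟨rfl, rfl⟩ := Prod.mk.inj h5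
        cases d
        · simp at hz1
        · exact hz2
      · cases d
        · simp only at hz1; subst hz1
          exact h n (q, false) hp hz2
        · simp at h5
    have hC : {m | ∃ z ∈ Z, Relation.ReflTransGen (St E1 E2) z (2, m)} ⊆ C := by
      rintro ⟨q, d⟩ ⟨⟨i, n⟩, ⟨hz1, hz2⟩, hp⟩
      rcases St.last hp (by norm_num) with h5 | h5
      · obtain ⟨rfl, rfl⟩ := Prod.mk.inj h5
        cases d
        · exact hz2
        · simp at hz1
      · cases d
        · simp at h5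
        · simp only at hz1; subst hz1
          exact h n (q, true) hp hz2
    refine ⟨{m | ∃ z ∈ Z, Relation.ReflTransGen (St E1 E2) z (1, m)}, (hx _ _).2 ?_, (hy _ _).2 ?_⟩
    · rintro ⟨q, d⟩ ⟨q', d'⟩ he hn
      have h5 := h3 _ _ he
      cases d <;> cases d'
      · exact hA (h5 hn)
      · exact h5 hn
      · exact hA (h5 ⟨(0, q, true), ⟨rfl, hn⟩, Relation.ReflTransGen.refl⟩)
      · exact h5 ⟨(0, q, true), ⟨rfl, hn⟩, Relation.ReflTransGen.refl⟩
    · rintro ⟨q, d⟩ ⟨q', d'⟩ he hn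
      have h5 := h4 _ _ he
      cases d <;> cases d'
      · exact h5 ⟨(2, q, false), ⟨rfl, hn⟩, Relation.ReflTransGen.refl⟩
      · exact hC (h5 ⟨(2, q, false), ⟨rfl, hn⟩, Relation.ReflTransGen.refl⟩)
      · exact h5 hn
      · exact hC (h5 hn)

theorem Fn.noFork {b : Lat (Q × Bool)} (hb : Fn b) : NoFork b := by
  obtain ⟨E, h1, hb⟩ := hb
  intro p f f' h2 h3
  obtain ⟨h4, h5⟩ := St.orbit (E1 := E) (E2 := E) {(1, p)}
  rw [← hb] at h4 h5
  obtain ⟨z, rfl, hz⟩ := h2 _ _ _ h4 h5 ⟨_, rfl, Relation.ReflTransGen.refl⟩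
  obtain ⟨z', rfl, hz'⟩ := h3 _ _ _ h4 h5 ⟨_, rfl, Relation.ReflTransGen.refl⟩
  have h6 := (St.last hz (by norm_num)).resolve_left (by simp)
  have h7 := (St.last hz' (by norm_num)).resolve_left (by simp)
  rcases Relation.ReflTransGen.total_of_right_unique (St.rightUnique h1 h1) hz hz' with h | h
  · rw [h6] at h
    have := congrArg Prod.fst (St.terminal h)
    simp only at this
    omega
  · rw [h7] at h
    have := congrArg Prod.fst (St.terminal h)
    simp only at this
    omega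

theorem Fn.le_of_le {a z : Lat (Q × Bool)} (ha : Fn a) (hz : Fn z) (haz : Loc a z)
    (h : ∀ A B, z.r A B → a.r A B) {A B : Set (Q × Bool)} (hAB : a.r A B) : z.r A B := by
  obtain ⟨Ea, -, ha⟩ := ha
  obtain ⟨Ez, h2, hz⟩ := hz
  rw [hz]
  intro n e hne hn
  by_cases hex : ∃ e', Ea n e'
  · obtain ⟨e', he'⟩ := hex
    have h3 : z.r {m | (m = n ∧ n.2 = true) ∨ (m = e ∧ e.2 = false)}
        {m | (m = n ∧ n.2 = false) ∨ (m = e ∧ e.2 = true)} := by
      rw [hz]
      rintro ⟨q, d⟩ e1 h4 h5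
      have : (q, d) = n := by
        cases d
        · rcases h5 with h5 | h5
          · exact h5.1
          · rw [← h5.1] at h5; simp at h5
        · rcases h5 with h5 | h5
          · exact h5.1
          · rw [← h5.1] at h5; simp at h5
      subst this
      obtain rfl := h2 _ _ _ hne h4
      obtain ⟨q', d'⟩ := e
      cases d'
      · exact Or.inr ⟨rfl, rfl⟩
      · exact Or.inr ⟨rfl, rfl⟩
    have h4 := (ha _ _).1 (h _ _ h3) n e' he' (by
      obtain ⟨q, d⟩ := n
      cases d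
      · exact Or.inl ⟨rfl, rfl⟩
      · exact Or.inl ⟨rfl, rfl⟩)
    have : e' = e := by
      obtain ⟨q', d'⟩ := e'
      cases d'
      · rcases h4 with h4 | h4
        · rw [← h4.1] at h4; simp at h4
        · exact h4.1
      · rcases h4 with h4 | h4
        · rw [← h4.1] at h4; simp at h4
        · exact h4.1
    subst this
    exact (ha _ _).1 hAB n _ he' hn
  · exfalso
    obtain ⟨q, d⟩ := n
    obtain ⟨q', d'⟩ := e
    cases d
    · have h3 : a.r ∅ {(q, false)} := by
        rw [ha]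
        rintro ⟨q1, d1⟩ e1 h4 h5
        cases d1
        · exact (hex ⟨e1, (show (q1, false) = (q, false) from h5) ▸ h4⟩).elim
        · exact h5.elim
      have h4 : z.r ∅ {(q, false)} := by
        rw [← haz.2]; exact ⟨∅, z.empty, h3⟩
      have h5 := (hz _ _).1 h4 _ _ hne rfl
      cases d'
      · exact h5
      · simp at h5
    · have h3 : a.r {(q, true)} ∅ := by
        rw [ha]
        rintro ⟨q1, d1⟩ e1 h4 h5
        cases d1
        · exact h5.elim
        · exact (hex ⟨e1, (show (q1, true) = (q, true) from h5) ▸ h4⟩).elim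
      have h4 : z.r {(q, true)} ∅ := by
        rw [← haz.1]; exact ⟨∅, h3, z.empty⟩
      have h5 := (hz _ _).1 h4 _ _ hne rfl
      cases d'
      · simp at h5
      · exact h5

end Crest.Agent.R294
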