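import Crest.Agent.R294.Count

/-!
The halving step and the abstract lower bound.
-/

set_option autoImplicit false

namespace Crest.Agent.R294

universe u v

open Crest.Agent.R294.Lat

theorem exists_idem {Γ : Type v} [Semigroup Γ] [Finite Γ] {T : Set Γ} (hne : T.Nonempty)
    (hmul : ∀ x ∈ T, ∀ y ∈ T, x * y ∈ T) : ∃ e ∈ T, e * e = e := by
  let _ : TopologicalSpace Γ := ⊥
  have : DiscreteTopology Γ := ⟨rfl⟩
  exact exists_idempotent_in_compact_subsemigroup (fun _ => continuous_of_discreteTopology) T hne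
    (Set.toFinite T).isCompact hmul

theorem exists_generic {Γ : Type v} [Semigroup Γ] [Finite Γ] {T : Set Γ} (hne : T.Nonempty)
    (hmul : ∀ x ∈ T, ∀ y ∈ T, x * y ∈ T) :
    ∃ a ∈ T, a * a = a ∧ ∀ w ∈ T, ∃ y ∈ T, a * w * y = a := by
  obtain ⟨a, ha, hmin⟩ := exists_minimalFor_of_wellFoundedLT (fun a => a ∈ T ∧ a * a = a)
    (fun a => ((fun w => a * w) '' T : Set Γ)) (exists_idem hne hmul)
  refine ⟨a, ha.1, ha.2, fun w hw => ?_⟩
  obtain ⟨e, ⟨y, hy, rfl⟩, he⟩ := exists_idem (T := (fun y => a * w * y) '' T) (hne.image _) (by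
    rintro _ ⟨y, hy, rfl⟩ _ ⟨y', hy', rfl⟩
    refine ⟨y * (a * w * y'), hmul _ hy _ (hmul _ (hmul _ ha.1 _ hw) _ hy'), ?_⟩
    simp only [mul_assoc])
  have h1 : (fun x => a * w * y * x) '' T ⊆ (fun x => a * x) '' T := by
    rintro _ ⟨x, hx, rfl⟩
    exact ⟨w * y * x, hmul _ (hmul _ hw _ hy) _ hx, by simp only [mul_assoc]⟩
  obtain ⟨x, hx, hx'⟩ := hmin (j := a * w * y) ⟨hmul _ (hmul _ ha.1 _ hw) _ hy, he⟩ h1
    ⟨a, ha.1, rfl⟩
  refine ⟨y * x, hmul _ hy _ hx, ?_⟩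
  simp only at hx'
  rw [← mul_assoc, hx', ha.2]

section rel

variable {V : Type}

/-- `r` is block triangular for the levels `lv` and agrees with `ρ` on level one -/
def Ov (lv : V → ℕ) (r ρ : V → V → Prop) : Prop :=
  (∀ v w, r v w → lv v ≤ lv w) ∧ ∀ v w, lv v = 1 → lv w = 1 → (r v w ↔ ρ v w)

theorem Ov.comp {lv : V → ℕ} {r ρ s σ τ : V → V → Prop} (h1 : Ov lv r ρ) (h2 : Ov lv s σ)
    (h : ∀ v w, lv v = 1 → lv w = 1 → (τ v w ↔ ∃ m, lv m = 1 ∧ ρ v m ∧ σ m w)) :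
    Ov lv (Relation.Comp r s) τ := by
  refine ⟨?_, fun v w hv hw => ?_⟩
  · rintro v w ⟨m, h3, h4⟩
    exact (h1.1 _ _ h3).trans (h2.1 _ _ h4)
  · rw [h v w hv hw]
    constructor
    · rintro ⟨m, h3, h4⟩
      have h5 := h1.1 _ _ h3
      have h6 := h2.1 _ _ h4
      have hm : lv m = 1 := by omega
      exact ⟨m, hm, (h1.2 _ _ hv hm).1 h3, (h2.2 _ _ hm hw).1 h4⟩
    · rintro ⟨m, hm, h3, h4⟩
      exact ⟨m, (h1.2 _ _ hv hm).2 h3, (h2.2 _ _ hm hw).2 h4⟩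

theorem Ov.eq_left {lv : V → ℕ} {r s σ : V → V → Prop} (h1 : Ov lv r Eq) (h2 : Ov lv s σ) :
    Ov lv (Relation.Comp r s) σ :=
  h1.comp h2 fun v _ hv _ => ⟨fun h => ⟨v, hv, rfl, h⟩, by rintro ⟨m, -, rfl, h⟩; exact h⟩

theorem Ov.eq_right {lv : V → ℕ} {r s ρ : V → V → Prop} (h1 : Ov lv r ρ) (h2 : Ov lv s Eq) :
    Ov lv (Relation.Comp r s) ρ :=
  h1.comp h2 fun _ w _ hw => ⟨fun h => ⟨w, hw, h, rfl⟩, by rintro ⟨m, -, h, rfl⟩; exact h⟩

theorem Ov.core (lv : V → ℕ) (ρ : V → V → Prop) :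
    Ov lv (fun v w => lv v = 1 ∧ lv w = 1 ∧ ρ v w) ρ :=
  ⟨fun v w h => by omega, fun v w hv hw => by simp [hv, hw]⟩

/-- the identity with one more edge -/
def edge (p q : V) (v w : V) : Prop := v = w ∨ (v = p ∧ w = q)

end rel

variable {P : Type u} {V : Type} {Γ : Type v} [Semigroup Γ]

/-- local monoid membership in `Γ` -/
def LocG (a y : Γ) : Prop := a * y = y ∧ y * a = y

theorem LocG.mul {a x y : Γ} (hx : LocG a x) (hy : LocG a y) : LocG a (x * y) :=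
  ⟨by rw [← mul_assoc, hx.1], by rw [mul_assoc, hy.2]⟩

theorem LocG.trans {a c x : Γ} (hc : LocG a c) (hx : LocG c x) : LocG a x :=
  ⟨by rw [← hx.1, ← mul_assoc, hc.1], by rw [← hx.2, mul_assoc, hc.2]⟩

theorem LocG.sandwich {a : Γ} (ha : a * a = a) (w : Γ) : LocG a (a * w * a) :=
  ⟨by rw [← mul_assoc, ← mul_assoc, ha], by rw [mul_assoc, ha]⟩

theorem LocG.map {β : Γ → Lat P} (hβ : ∀ x y, β (x * y) = β x * β y) {a y : Γ} (h : LocG a y) :
    Loc (β a) (β y) := ⟨by rw [← hβ, h.1], by rw [← hβ, h.2]⟩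

/-- the inductive system -/
def Sys (β : Γ → Lat P) (φ : Γ → V → V → Prop) (lv : V → ℕ) (μ : ℕ) : Prop :=
  ∃ a : Γ, a * a = a ∧ Ov lv (φ a) Eq ∧ ∀ p q, lv p = 1 → lv q = 1 → p ≠ q →
    ∃ z, LocG a z ∧ Ov lv (φ z) (edge p q) ∧ cnt (β a) (lost (β a) (β z)) ≤ μ

/-- generic localisation and conjugation -/
theorem sys_of_pair [Finite P] [Finite Γ] {β : Γ → Lat P} {φ : Γ → V → V → Prop}
    (hβ : ∀ x y, β (x * y) = β x * β y) (hφ : ∀ x y, φ (x * y) = Relation.Comp (φ x) (φ y))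
    (hsurj : ∀ r, ∃ x, φ x = r) {κ : ℕ}
    (hκ : κ = 2 ∨ (κ = 1 ∧ ∀ b : Γ, b * b = b → NoFork (β b)))
    {lv : V → ℕ} {c e : Γ} {x y : V} (hx : lv x = 1) (hy : lv y = 1) (hxy : x ≠ y)
    (hc : c * c = c) (he : LocG c e) (hφc : Ov lv (φ c) Eq) (hφe : Ov lv (φ e) (edge x y)) :
    Sys β φ lv (κ * cnt (β c) (lost (β c) (β e))) := by
  classical
  obtain ⟨a, ⟨ha1, ha2⟩, ha, hgen⟩ := exists_generic (T := {w | LocG c w ∧ Ov lv (φ w) Eq})
    ⟨c, ⟨hc, hc⟩, hφc⟩ (fun w hw w' hw' => ⟨hw.1.mul hw'.1, by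
      rw [hφ]; exact hw.2.eq_left hw'.2⟩)
  refine ⟨a, ha, ha2, fun p q hp hq hpq => ?_⟩
  obtain ⟨g, hg1, hg2, hg3⟩ : ∃ g : Equiv.Perm V, g p = x ∧ g q = y ∧
      ∀ v, lv (g v) = 1 ↔ lv v = 1 := by
    have sw : ∀ s t v, lv s = 1 → lv t = 1 → (lv (Equiv.swap s t v) = 1 ↔ lv v = 1) := by
      intro s t v hs ht
      rw [Equiv.swap_apply_def]
      split_ifs with h1 h2
      · simp [h1, hs, ht]
      · simp [h2, hs, ht]
      · rfl
    refine ⟨Equiv.swap (Equiv.swap p x q) y * Equiv.swap p x, ?_, ?_, fun v => ?_⟩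
    · rw [Equiv.Perm.mul_apply, Equiv.swap_apply_left]
      apply Equiv.swap_apply_of_ne_of_ne _ hxy
      intro h
      apply hpq
      apply (Equiv.swap p x).injective
      rw [Equiv.swap_apply_left, ← h]
    · rw [Equiv.Perm.mul_apply, Equiv.swap_apply_left]
    · rw [Equiv.Perm.mul_apply, sw _ _ _ ((sw _ _ _ hp hx).2 hq) hy, sw _ _ _ hp hx]
  obtain ⟨G, hG⟩ := hsurj (fun v w => lv v = 1 ∧ lv w = 1 ∧ w = g v)
  obtain ⟨G', hG'⟩ := hsurj (fun v w => lv v = 1 ∧ lv w = 1 ∧ v = g w)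
  have hG1 : Ov lv (φ G) (fun v w => w = g v) := hG ▸ Ov.core lv _
  have hG2 : Ov lv (φ G') (fun v w => v = g w) := hG' ▸ Ov.core lv _
  have hw : Ov lv (φ (c * (G * a * G') * c * a)) Eq := by
    rw [hφ, hφ, hφ, hφ, hφ]
    refine Ov.eq_right (Ov.eq_right (hφc.eq_left ((hG1.eq_right ha2).comp hG2 ?_)) hφc) ha2
    intro v w hv hw
    constructor
    · rintro rfl; exact ⟨g v, (hg3 v).2 hv, rfl, rfl⟩
    · rintro ⟨m, -, h1, h2⟩; exact g.injective (h1.symm.trans h2)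
  obtain ⟨y', ⟨hy1, hy2⟩, hy3⟩ := hgen _ ⟨(LocG.sandwich hc _).mul ha1, hw⟩
  have hX : a * G * a * c = a * G * a := by rw [mul_assoc, ha1.2]
  have hY : c * (a * G' * a * y' * a) = a * G' * a * y' * a := by
    simp only [← mul_assoc]; rw [ha1.1]
  have hsk : a * G * a * c * (a * G' * a * y' * a) = a := by
    have h1 : a * (c * (G * a * G') * c * a) * y' = a * G * a * G' * a * y' := by
      calc a * (c * (G * a * G') * c * a) * y' = (a * c) * G * a * G' * (c * a) * y' := by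
            simp only [mul_assoc]
        _ = _ := by rw [ha1.1, ha1.2]
    rw [hX]
    calc a * G * a * (a * G' * a * y' * a) = a * G * (a * a) * G' * a * y' * a := by
          simp only [mul_assoc]
      _ = a := by rw [ha, ← h1, hy3, ha]
  refine ⟨a * G * a * e * (a * G' * a * y' * a), ⟨?_, ?_⟩, ?_, ?_⟩
  · simp only [← mul_assoc]; rw [ha]
  · simp only [mul_assoc]; rw [ha]
  · rw [hφ, hφ, hφ, hφ, hφ, hφ, hφ, hφ]
    refine Ov.comp (ρ := fun v w => edge x y (g v) w) (σ := fun v w => v = g w)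
      (((ha2.eq_left hG1).eq_right ha2).comp hφe ?_)
      ((((ha2.eq_left hG2).eq_right ha2).eq_right hy2).eq_right ha2) ?_
    · intro v w hv _
      constructor
      · intro h; exact ⟨g v, (hg3 v).2 hv, rfl, h⟩
      · rintro ⟨m, -, rfl, h⟩; exact h
    · intro v w _ hw
      have : edge p q v w ↔ edge x y (g v) (g w) := by
        unfold edge
        rw [← hg1, ← hg2]
        simp only [g.injective.eq_iff]
      rw [this]
      constructor
      · intro h; exact ⟨g w, (hg3 w).2 hw, h, rfl⟩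
      · rintro ⟨m, -, h, rfl⟩; exact h
  · have haa : Loc (β a) (β a) := LocG.map hβ ⟨ha, ha⟩
    have hcc : Loc (β c) (β c) := LocG.map hβ ⟨hc, hc⟩
    have hX' : β (a * G * a) * β c = β (a * G * a) := by rw [← hβ, hX]
    have hY' : β c * β (a * G' * a * y' * a) = β (a * G' * a * y' * a) := by rw [← hβ, hY]
    have hsk' : β (a * G * a) * β c * β (a * G' * a * y' * a) = β a := by rw [← hβ, ← hβ, hsk]
    refine le_trans (cnt_mono _ ?_) (blocked_le haa hX' hY' hsk'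
      (hκ.imp id fun h => ⟨h.1, h.2 a ha⟩) (M := lost (β c) (β e)) fun m hm => hm.1)
    intro n hn
    refine ⟨hn.1, ?_⟩
    by_contra hno
    apply hn.2
    rw [hβ, hβ (a * G * a)]
    refine survive hcc (he.map hβ) hX' hY' (by rw [hsk']; exact hn.1) fun m hm hbl => ?_
    by_contra hm'
    exact hno ⟨m, ⟨hm, hm'⟩, hbl⟩

/-- the relation with the hub erased and the edges of `E` added -/
def bip {V : Type} {k : ℕ} (s : V) (x y : Fin k → V) (E : Finset (Fin k × Fin k)) (v w : V) :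
    Prop :=
  (v = w ∧ v ≠ s) ∨ ∃ t ∈ E, v = x t.1 ∧ w = y t.2

theorem bip_comp {V : Type} {k : ℕ} {lv : V → ℕ} {s : V} {x y : Fin k → V}
    (hxs : ∀ j, x j ≠ s) (hys : ∀ i, y i ≠ s) (hxy : ∀ j i, x j ≠ y i)
    (E E' E'' : Finset (Fin k × Fin k)) (hE : ∀ t, t ∈ E'' ↔ t ∈ E ∨ t ∈ E')
    (v w : V) (hv : lv v = 1) (hw : lv w = 1) :
    bip s x y E'' v w ↔ ∃ m, lv m = 1 ∧ bip s x y E v m ∧ bip s x y E' m w := by
  constructor
  · rintro (⟨rfl, h⟩ | ⟨t, ht, rfl, rfl⟩)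
    · exact ⟨v, hv, Or.inl ⟨rfl, h⟩, Or.inl ⟨rfl, h⟩⟩
    · rcases (hE t).1 ht with h | h
      · exact ⟨_, hw, Or.inr ⟨t, h, rfl, rfl⟩, Or.inl ⟨rfl, hys _⟩⟩
      · exact ⟨_, hv, Or.inl ⟨rfl, hxs _⟩, Or.inr ⟨t, h, rfl, rfl⟩⟩
  · rintro ⟨m, -, (⟨rfl, h1⟩ | ⟨t, ht, rfl, rfl⟩), h2⟩
    · rcases h2 with h2 | ⟨t, ht, h2⟩
      · exact Or.inl h2
      · exact Or.inr ⟨t, (hE t).2 (Or.inr ht), h2⟩
    · rcases h2 with ⟨rfl, -⟩ | ⟨t', -, h2, -⟩
      · exact Or.inr ⟨t, (hE t).2 (Or.inl ht), rfl, rfl⟩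
      · exact absurd h2.symm (hxy _ _)

theorem exists_cheap [Finite P] [Finite Γ] {β : Γ → Lat P} {φ : Γ → V → V → Prop}
    (hβ : ∀ x y, β (x * y) = β x * β y) (hφ : ∀ x y, φ (x * y) = Relation.Comp (φ x) (φ y))
    (hsurj : ∀ r, ∃ x, φ x = r) {κ : ℕ}
    (hκ : κ = 2 ∨ (κ = 1 ∧ ∀ b : Γ, b * b = b → NoFork (β b)))
    {lv : V → ℕ} {μ : ℕ} (hS : Sys β φ lv μ) {k : ℕ} (hk : 0 < k) {s : V} {x y : Fin k → V}
    (hs : lv s = 1) (hx : ∀ j, lv (x j) = 1) (hy : ∀ i, lv (y i) = 1)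
    (hxs : ∀ j, x j ≠ s) (hys : ∀ i, y i ≠ s) (hxy : ∀ j i, x j ≠ y i) :
    ∃ (c e : Γ) (E : Finset (Fin k × Fin k)) (t : Fin k × Fin k), t ∉ E ∧ c * c = c ∧
      LocG c e ∧ Ov lv (φ c) (bip s x y E) ∧ Ov lv (φ e) (bip s x y (insert t E)) ∧
      k * cnt (β c) (lost (β c) (β e)) ≤ 4 * κ * μ := by
  classical
  obtain ⟨a, ha, hφa, hz⟩ := hS
  choose α hα1 hα2 hα3 using fun j => hz (x j) s (hx j) hs (hxs j)
  choose γ hγ1 hγ2 hγ3 using fun i => hz s (y i) hs (hy i) (hys i).symm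
  obtain ⟨er, her⟩ := hsurj (fun v w => lv v = 1 ∧ lv w = 1 ∧ bip s x y ∅ v w)
  have her1 : Ov lv (φ er) (bip s x y ∅) := her ▸ Ov.core lv _
  obtain ⟨b, ⟨hb1, hb2⟩, hb⟩ := exists_idem (T := {w | LocG a w ∧ Ov lv (φ w) (bip s x y ∅)})
    ⟨a * er * a, LocG.sandwich ha _, by
      rw [hφ, hφ]; exact (hφa.eq_left her1).eq_right hφa⟩
    (fun w hw w' hw' => ⟨hw.1.mul hw'.1, by
      rw [hφ]; exact hw.2.comp hw'.2 (bip_comp hxs hys hxy _ _ _ (by simp))⟩)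
  have haa : Loc (β a) (β a) := LocG.map hβ ⟨ha, ha⟩
  have hbb : Loc (β b) (β b) := LocG.map hβ ⟨hb, hb⟩
  have hab : Loc (β a) (β b) := hb1.map hβ
  have hsk : β b * β a * β b = β b := by rw [hab.2, hbb.1]
  -- the set of points lost by one of the generators
  set M : Set (P × Bool) := ⋃ i : Fin k ⊕ Fin k, lost (β a) (β (Sum.elim α γ i)) with hM
  have hMc : cnt (β a) M ≤ 2 * k * μ := by
    refine le_trans (cnt_iUnion (μ := μ) _ _ ?_) (by simp [two_mul])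
    rintro (j | i)
    · exact hα3 j
    · exact hγ3 i
  set Sf : Set (P × Bool) :=
    {p | cr (β b) (β b) p p ∧ ¬ ∃ m ∈ M, blocks (β b) (β b) (β a) (β b) p m} with hSf
  have hU : cnt (β b) (uns Sf (β b)) ≤ κ * (2 * k * μ) := by
    refine le_trans (cnt_mono _ ?_) (le_trans (blocked_le hbb hab.2 hab.1 hsk
      (hκ.imp id fun h => ⟨h.1, h.2 b hb⟩) (M := M) ?_) (Nat.mul_le_mul_left _ hMc))
    · intro n hn
      refine ⟨hn.1, ?_⟩
      by_contra hno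
      exact hn.2 n ⟨hn.1, hno⟩ ⟨hn.1, hn.1⟩
    · intro m hm
      obtain ⟨i, hi⟩ := Set.mem_iUnion.1 hm
      exact hi.1
  -- the single-edge elements
  have hc' : ∀ t : Fin k × Fin k, ∃ w, LocG b w ∧ Ov lv (φ w) (bip s x y {t}) ∧
      ∀ n ∈ Sf, cr (β b) (β w) n n := by
    rintro ⟨j, i⟩
    refine ⟨b * (α j * γ i) * b, LocG.sandwich hb _, ?_, fun n hn => ?_⟩
    · rw [hφ, hφ, hφ]
      refine Ov.comp (ρ := fun v w => v ≠ s ∧ (edge (x j) s v w ∨ (v = x j ∧ w = y i)))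
        (hb2.comp (σ := fun v w => edge (x j) s v w ∨ ((v = x j ∨ v = s) ∧ w = y i))
          ((hα2 j).comp (hγ2 i) ?_) ?_) hb2 ?_
      · intro v w hv hw
        constructor
        · rintro ((rfl | ⟨rfl, rfl⟩) | ⟨rfl | rfl, rfl⟩)
          · exact ⟨v, hv, Or.inl rfl, Or.inl rfl⟩
          · exact ⟨_, hw, Or.inr ⟨rfl, rfl⟩, Or.inl rfl⟩
          · exact ⟨s, hs, Or.inr ⟨rfl, rfl⟩, Or.inr ⟨rfl, rfl⟩⟩
          · exact ⟨_, hv, Or.inl rfl, Or.inr ⟨rfl, rfl⟩⟩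
        · rintro ⟨m, -, (rfl | ⟨rfl, rfl⟩), (rfl | ⟨h1, rfl⟩)⟩
          · exact Or.inl (Or.inl rfl)
          · exact Or.inr ⟨Or.inr h1, rfl⟩
          · exact Or.inl (Or.inr ⟨rfl, rfl⟩)
          · exact Or.inr ⟨Or.inl rfl, rfl⟩
      · intro v w hv _
        constructor
        · rintro ⟨h1, h2 | ⟨h2, h3⟩⟩
          · exact ⟨v, hv, Or.inl ⟨rfl, h1⟩, Or.inl h2⟩
          · exact ⟨v, hv, Or.inl ⟨rfl, h1⟩, Or.inr ⟨Or.inl h2, h3⟩⟩
        · rintro ⟨m, -, (⟨rfl, h1⟩ | ⟨t, ht, -⟩), h2⟩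
          · refine ⟨h1, ?_⟩
            rcases h2 with h2 | ⟨h2 | h2, h3⟩
            · exact Or.inl h2
            · exact Or.inr ⟨h2, h3⟩
            · exact absurd h2 h1
          · simp at ht
      · intro v w _ hw
        constructor
        · rintro (⟨rfl, h1⟩ | ⟨t, ht, rfl, rfl⟩)
          · exact ⟨v, hw, ⟨h1, Or.inl (Or.inl rfl)⟩, Or.inl ⟨rfl, h1⟩⟩
          · rw [Finset.mem_singleton] at ht
            subst ht
            exact ⟨_, hw, ⟨hxs _, Or.inr ⟨rfl, rfl⟩⟩, Or.inl ⟨rfl, hys _⟩⟩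
        · rintro ⟨m, -, ⟨h1, h2⟩, (⟨rfl, h3⟩ | ⟨t, ht, -⟩)⟩
          · rcases h2 with (h2 | ⟨-, h2⟩) | h2
            · exact Or.inl ⟨h2, h1⟩
            · exact absurd h2 h3
            · exact Or.inr ⟨(j, i), Finset.mem_singleton_self _, h2⟩
          · simp at ht
    · rw [hβ, hβ]
      refine survive haa (((hα1 j).mul (hγ1 i)).map hβ) hab.2 hab.1 (by rw [hsk]; exact hn.1)
        fun m hm hbl => ?_
      rw [hβ]
      refine cr_loop_mul ((hα1 j).map hβ) ((hγ1 i).map hβ) ?_ ?_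
      · by_contra h
        exact hn.2 ⟨m, Set.mem_iUnion.2 ⟨Sum.inl j, hm, h⟩, hbl⟩
      · by_contra h
        exact hn.2 ⟨m, Set.mem_iUnion.2 ⟨Sum.inr i, hm, h⟩, hbl⟩
  by_contra hne
  push Not at hne
  have main : ∀ E : Finset (Fin k × Fin k), ∃ c, c * c = c ∧ LocG b c ∧
      Ov lv (φ c) (bip s x y E) ∧ (∀ n ∈ Sf, cr (β b) (β c) n n) ∧
      2 * k * cnt (β c) (uns Sf (β c)) + E.card * (4 * κ * μ + 1) ≤
        2 * k * cnt (β b) (uns Sf (β b)) := by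
    intro E
    induction E using Finset.induction_on with
    | empty => exact ⟨b, hb, ⟨hb, hb⟩, hb2, fun n hn => hn.1, by simp⟩
    | insert t E ht ih =>
      obtain ⟨c, hc, hbc, hφc, hSc, hcnt⟩ := ih
      obtain ⟨w, hw1, hw2, hw3⟩ := hc' t
      obtain ⟨e, ⟨he1, he2, he3⟩, he⟩ := exists_idem (T := {e | LocG c e ∧
          Ov lv (φ e) (bip s x y (insert t E)) ∧ ∀ n ∈ Sf, cr (β b) (β e) n n})
        ⟨c * w * c, LocG.sandwich hc _, by
          rw [hφ, hφ]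
          exact (hφc.comp hw2 (bip_comp hxs hys hxy _ _ (insert t E) (by simp [or_comm]))).comp hφc
            (bip_comp hxs hys hxy _ _ _ (by simp)), fun n hn => by
          rw [hβ, hβ]
          exact cr_loop_mul ((hbc.map hβ).mul (hw1.map hβ)) (hbc.map hβ)
            (cr_loop_mul (hbc.map hβ) (hw1.map hβ) (hSc n hn) (hw3 n hn)) (hSc n hn)⟩
        (fun w hw w' hw' => ⟨hw.1.mul hw'.1, by
          rw [hφ]; exact hw.2.1.comp hw'.2.1 (bip_comp hxs hys hxy _ _ _ (by simp)),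
          fun n hn => by
            rw [hβ]
            exact cr_loop_mul ((hbc.trans hw.1).map hβ) ((hbc.trans hw'.1).map hβ)
              (hw.2.2 n hn) (hw'.2.2 n hn)⟩)
      refine ⟨e, he, hbc.trans he1, he2, he3, ?_⟩
      have h1 := hne c e E t ht hc he1 hφc he2
      have h2 := potential (LocG.map hβ ⟨hc, hc⟩) (LocG.map hβ ⟨he, he⟩) (he1.map hβ) (Sf := Sf)
        fun m hm => cr_mono (hbc.map hβ) (he3 m hm)
      rw [Finset.card_insert_of_notMem ht]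
      have h3 := Nat.mul_le_mul_left k h2
      nlinarith
  obtain ⟨c, -, -, -, -, hcnt⟩ := main Finset.univ
  rw [Finset.card_univ, Fintype.card_prod, Fintype.card_fin] at hcnt
  have h4 := Nat.mul_le_mul_left (2 * k) hU
  have h5 : 0 < k * k := Nat.mul_pos hk hk
  nlinarith [Nat.zero_le (2 * k * cnt (β c) (uns Sf (β c)))]

theorem sys_step [Finite P] [Finite Γ] [Fintype V] {β : Γ → Lat P} {φ : Γ → V → V → Prop}
    (hβ : ∀ x y, β (x * y) = β x * β y) (hφ : ∀ x y, φ (x * y) = Relation.Comp (φ x) (φ y))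
    (hsurj : ∀ r, ∃ x, φ x = r) {κ : ℕ}
    (hκ : κ = 2 ∨ (κ = 1 ∧ ∀ b : Γ, b * b = b → NoFork (β b)))
    {lv : V → ℕ} {μ : ℕ} (hS : Sys β φ lv μ) {k : ℕ} (hk : 0 < k)
    (hcard : 2 * k + 1 ≤ {v | lv v = 1}.ncard) :
    ∃ (lv' : V → ℕ) (μ' : ℕ), Sys β φ lv' μ' ∧ k * μ' ≤ 4 * κ * κ * μ ∧
      {v | lv v = 1}.ncard ≤ {v | lv' v = 1}.ncard + (2 * k - 1) := by
  classical
  obtain ⟨f⟩ : Nonempty (Option (Fin k ⊕ Fin k) ↪ {v | lv v = 1}) := by
    apply Function.Embedding.nonempty_of_card_le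
    rw [← Set.ncard_coe] at hcard
    simp only [Fintype.card_option, Fintype.card_sum, Fintype.card_fin]
    rw [Set.ncard_univ, Nat.card_eq_fintype_card] at hcard
    omega
  set F : Option (Fin k ⊕ Fin k) → V := fun o => (f o).1 with hF
  have hFi : Function.Injective F := fun o o' h => f.injective (Subtype.ext h)
  have hF1 : ∀ o, lv (F o) = 1 := fun o => (f o).2
  obtain ⟨c, e, E, ⟨j, i⟩, ht, hc, he, hφc, hφe, hcnt⟩ := exists_cheap hβ hφ hsurj hκ hS hk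
    (s := F none) (x := fun j => F (some (Sum.inl j))) (y := fun i => F (some (Sum.inr i)))
    (hF1 _) (fun _ => hF1 _) (fun _ => hF1 _) (fun _ => by simp [hFi.eq_iff])
    (fun _ => by simp [hFi.eq_iff]) (fun _ _ => by simp [hFi.eq_iff])
  set lv' : V → ℕ := fun v =>
    if v = F none ∨ ∃ j', j' ≠ j ∧ v = F (some (Sum.inl j')) then 0
    else if ∃ i', i' ≠ i ∧ v = F (some (Sum.inr i')) then 2 else lv v with hlv'
  have hx1 : lv' (F (some (Sum.inl j))) = 1 := by simp [hlv', hFi.eq_iff, hF1]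
  have hy1 : lv' (F (some (Sum.inr i))) = 1 := by simp [hlv', hFi.eq_iff, hF1]
  have hxle : ∀ j', lv' (F (some (Sum.inl j'))) ≤ 1 := by
    intro j'
    by_cases h : j' = j
    · rw [h, hx1]
    · simp [hlv', hFi.eq_iff, h]
  have hyle : ∀ i', 1 ≤ lv' (F (some (Sum.inr i'))) := by
    intro i'
    by_cases h : i' = i
    · rw [h, hy1]
    · simp [hlv', hFi.eq_iff, h]
  have hne1 : ∀ v, lv v ≠ 1 → lv' v = lv v := by
    intro v hv
    have : ∀ o, v ≠ F o := fun o h => hv (h ▸ hF1 o)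
    simp [hlv', this]
  have hle2 : ∀ v, lv v = 1 → lv' v ≤ 2 := by
    intro v hv
    simp only [hlv']
    split_ifs <;> omega
  have hcore : ∀ v, lv' v = 1 → lv v = 1 ∧ v ≠ F none ∧
      (∀ j', v = F (some (Sum.inl j')) → j' = j) ∧ (∀ i', v = F (some (Sum.inr i')) → i' = i) := by
    intro v hv
    by_cases h1 : v = F none ∨ ∃ j', j' ≠ j ∧ v = F (some (Sum.inl j'))
    · simp only [hlv', if_pos h1] at hv; omega
    by_cases h2 : ∃ i', i' ≠ i ∧ v = F (some (Sum.inr i'))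
    · simp only [hlv', if_neg h1, if_pos h2] at hv; omega
    simp only [hlv', if_neg h1, if_neg h2] at hv
    exact ⟨hv, fun h => h1 (Or.inl h), fun j' h => by_contra fun h' => h1 (Or.inr ⟨j', h', h⟩),
      fun i' h => by_contra fun h' => h2 ⟨i', h', h⟩⟩
  have conv : ∀ (r : V → V → Prop) (E' : Finset (Fin k × Fin k)) (ρ : V → V → Prop),
      Ov lv r (bip (F none) (fun j => F (some (Sum.inl j))) (fun i => F (some (Sum.inr i))) E') →
      (∀ v w, ρ v w ↔ (v = w ∨ ((j, i) ∈ E' ∧ v = F (some (Sum.inl j)) ∧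
        w = F (some (Sum.inr i))))) → Ov lv' r ρ := by
    intro r E' ρ hr hρ
    refine ⟨fun v w h => ?_, fun v w hv hw => ?_⟩
    · have h1 := hr.1 v w h
      by_cases hv : lv v = 1
      · by_cases hw : lv w = 1
        · rcases (hr.2 v w hv hw).1 h with ⟨rfl, -⟩ | ⟨t, -, rfl, rfl⟩
          · exact le_rfl
          · exact (hxle _).trans (hyle _)
        · rw [hne1 w hw]
          have := hle2 v hv
          omega
      · rw [hne1 v hv]
        by_cases hw : lv w = 1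
        · omega
        · rw [hne1 w hw]; exact h1
    · obtain ⟨h1, h2, h3, -⟩ := hcore v hv
      obtain ⟨h4, -, -, h5⟩ := hcore w hw
      rw [hr.2 v w h1 h4, hρ]
      constructor
      · rintro (⟨h, -⟩ | ⟨⟨j', i'⟩, ht', h6, h7⟩)
        · exact Or.inl h
        · obtain rfl := h3 _ h6
          obtain rfl := h5 _ h7
          exact Or.inr ⟨ht', h6, h7⟩
      · rintro (h | ⟨h6, h7⟩)
        · exact Or.inl ⟨h, h2⟩
        · exact Or.inr ⟨_, h6, h7⟩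
  refine ⟨lv', _, sys_of_pair hβ hφ hsurj hκ hx1 hy1 (by simp [hFi.eq_iff]) hc he
    (conv _ _ _ hφc (by simp [ht])) (conv _ _ _ hφe (by simp [edge])), ?_, ?_⟩
  · calc k * (κ * cnt (β c) (lost (β c) (β e))) = κ * (k * cnt (β c) (lost (β c) (β e))) := by ring
      _ ≤ κ * (4 * κ * μ) := Nat.mul_le_mul_left _ hcnt
      _ = _ := by ring
  · have hsub : {v | lv v = 1} ⊆ {v | lv' v = 1} ∪
        (F '' ((Finset.univ \ {some (Sum.inl j), some (Sum.inr i)} :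
          Finset (Option (Fin k ⊕ Fin k))) : Set (Option (Fin k ⊕ Fin k)))) := by
      intro v hv
      by_cases h1 : v = F none ∨ ∃ j', j' ≠ j ∧ v = F (some (Sum.inl j'))
      · right
        rcases h1 with rfl | ⟨j', h, rfl⟩
        · exact ⟨_, by simp, rfl⟩
        · exact ⟨_, by simp [h], rfl⟩
      · by_cases h2 : ∃ i', i' ≠ i ∧ v = F (some (Sum.inr i'))
        · obtain ⟨i', h, rfl⟩ := h2
          exact Or.inr ⟨_, by simp [h], rfl⟩
        · left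
          simp only [hlv', Set.mem_ofPred_eq, if_neg h1, if_neg h2]
          exact hv
    refine le_trans (Set.ncard_le_ncard hsub) (le_trans (Set.ncard_union_le _ _) ?_)
    refine Nat.add_le_add_left (le_trans Set.ncard_image_le ?_) _
    rw [Set.ncard_coe_finset, Finset.card_univ_sdiff, Finset.card_pair (by simp)]
    simp only [Fintype.card_option, Fintype.card_sum, Fintype.card_fin]
    omega

theorem lower_bound [Finite P] [Finite Γ] [Fintype V] {β : Γ → Lat P} {φ : Γ → V → V → Prop}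
    (hβ : ∀ x y, β (x * y) = β x * β y) (hφ : ∀ x y, φ (x * y) = Relation.Comp (φ x) (φ y))
    (hsurj : ∀ r, ∃ x, φ x = r) {κ : ℕ}
    (hκ : κ = 2 ∨ (κ = 1 ∧ ∀ b : Γ, b * b = b → NoFork (β b)))
    (hbase : ∀ a z : Γ, LocG a z → (∀ A B, (β z).r A B → (β a).r A B) →
      ∀ p q, φ z p q → φ a p q)
    {k : ℕ} (hk : 0 < k) (hkκ : 8 * κ * κ ≤ k) (d : ℕ)
    (hd : 2 + (2 * k - 1) * d ≤ Fintype.card V) : 2 ^ d ≤ 2 * Nat.card P := by
  have main : ∀ (d : ℕ) (lv : V → ℕ) (μ : ℕ), Sys β φ lv μ →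
      2 + (2 * k - 1) * d ≤ {v | lv v = 1}.ncard → 2 ^ d ≤ μ := by
    intro d
    induction d with
    | zero =>
      rintro lv μ ⟨a, ha, hφa, hz⟩ hcard
      obtain ⟨p, q, hp, hq, hpq⟩ := (Set.one_lt_ncard_iff (s := {v | lv v = 1})).1 (by omega)
      obtain ⟨z, hz1, hz2, hz3⟩ := hz p q hp hq hpq
      by_contra hμ
      have h0 : cnt (β a) (lost (β a) (β z)) = 0 := by omega
      have h1 := hbase a z hz1 (fun A B => le_of_cr_loops (LocG.map hβ ⟨ha, ha⟩) (hz1.map hβ)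
        (lost_empty_of_cnt h0)) p q ((hz2.2 p q hp hq).2 (Or.inr ⟨rfl, rfl⟩))
      exact hpq ((hφa.2 p q hp hq).1 h1)
    | succ d ih =>
      intro lv μ hS hcard
      rw [Nat.mul_succ] at hcard
      obtain ⟨lv', μ', hS', h1, h2⟩ := sys_step hβ hφ hsurj hκ hS hk (by omega)
      have h3 := ih lv' μ' hS' (by omega)
      have h4 : k * (2 * μ') ≤ k * μ := by nlinarith
      have h5 := Nat.le_of_mul_le_mul_left h4 hk
      rw [pow_succ]
      omega
  refine main d (fun _ => 1) _ ?_ (by simpa [Set.ncard_univ] using hd)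
  obtain ⟨a0, ha0⟩ := hsurj Eq
  have hov : ∀ r : V → V → Prop, Ov (fun _ => 1) r r := fun r =>
    ⟨fun _ _ _ => le_rfl, fun _ _ _ _ => Iff.rfl⟩
  obtain ⟨a, ha1, ha⟩ := exists_idem (T := {w | Ov (fun _ => 1) (φ w) Eq})
    ⟨a0, by simp only [Set.mem_ofPred_eq, ha0]; exact hov _⟩
    (fun w hw w' hw' => by simp only [Set.mem_ofPred_eq, hφ]; exact Ov.eq_left hw hw')
  refine ⟨a, ha, ha1, fun p q _ _ _ => ?_⟩
  obtain ⟨w, hw⟩ := hsurj (edge p q)
  refine ⟨a * w * a, LocG.sandwich ha _, ?_, cnt_le _ _⟩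
  rw [hφ, hφ, hw]
  exact Ov.eq_right (Ov.eq_left ha1 (hov _)) ha1

end Crest.Agent.R294
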