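import Crest.Prelude.Def_TwoWay
import Crest.Agent.R294.Halve
import Crest.Agent.R294.Det

/-!
From two-way automata to closed-set relations.
-/

set_option autoImplicit false

namespace Crest.Agent.R294

universe u

open Crest.Agent.R294.Lat Crest.TwoWay

/-- the closed-set relation of a single cell -/
def cellLat {Q : Type u} (δ : Q → Set (Q × HeadMove)) : Lat (Q × Bool) where
  r A B := ∃ T : Set Q, (∀ q, (q, true) ∈ A → q ∈ T) ∧ (∀ q, (q, false) ∈ B → q ∈ T) ∧
    (∀ q ∈ T, ∀ q', (q', HeadMove.moveLeft) ∈ δ q → (q', false) ∈ A) ∧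
    (∀ q ∈ T, ∀ q', (q', HeadMove.stay) ∈ δ q → q' ∈ T) ∧
    (∀ q ∈ T, ∀ q', (q', HeadMove.moveRight) ∈ δ q → (q', true) ∈ B)
  sup A B h := by
    choose T h1 h2 h3 h4 h5 using h
    refine ⟨⋃ i, T i, ?_, ?_, ?_, ?_, ?_⟩ <;> simp only [Set.mem_iUnion]
    · rintro q ⟨i, hi⟩; exact ⟨i, h1 i q hi⟩
    · rintro q ⟨i, hi⟩; exact ⟨i, h2 i q hi⟩
    · rintro q ⟨i, hi⟩ q' h; exact ⟨i, h3 i q hi q' h⟩
    · rintro q ⟨i, hi⟩ q' h; exact ⟨i, h4 i q hi q' h⟩
    · rintro q ⟨i, hi⟩ q' h; exact ⟨i, h5 i q hi q' h⟩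
  inf A B h := by
    choose T h1 h2 h3 h4 h5 using h
    refine ⟨⋂ i, T i, ?_, ?_, ?_, ?_, ?_⟩ <;> simp only [Set.mem_iInter]
    · intro q hi i; exact h1 i q (hi i)
    · intro q hi i; exact h2 i q (hi i)
    · intro q hi q' h i; exact h3 i q (hi i) q' h
    · intro q hi q' h i; exact h4 i q (hi i) q' h
    · intro q hi q' h i; exact h5 i q (hi i) q' h

theorem cellLat_fn {Q : Type u} {δ : Q → Set (Q × HeadMove)} (hδ : ∀ q, (δ q).Subsingleton) :
    Fn (cellLat δ) := by
  let s : Q → Q → Prop := fun q q' => (q', HeadMove.stay) ∈ δ q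
  have hs : Relator.RightUnique s := fun q q1 q2 h1 h2 => congrArg Prod.fst (hδ q h1 h2)
  have stop : ∀ q q' q'' (d : Bool), (q'', bif d then HeadMove.moveRight else HeadMove.moveLeft) ∈
      δ q → Relation.ReflTransGen s q q' → q' = q := by
    intro q q' q'' d h1 h2
    rcases h2.cases_head with h | ⟨c, h, -⟩
    · exact h.symm
    · have := congrArg Prod.snd (hδ q h1 h)
      cases d <;> simp at this
  refine ⟨fun n e => ∃ q, Relation.ReflTransGen s n.1 q ∧
    (e.1, bif e.2 then HeadMove.moveRight else HeadMove.moveLeft) ∈ δ q, ?_, fun A B => ⟨?_, ?_⟩⟩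
  · rintro n ⟨e, d⟩ ⟨e', d'⟩ ⟨q, h1, h2⟩ ⟨q', h3, h4⟩
    have : q = q' := by
      rcases Relation.ReflTransGen.total_of_right_unique hs h1 h3 with h | h
      · exact (stop _ _ _ _ h2 h).symm
      · exact stop _ _ _ _ h4 h
    subst this
    have := hδ q h2 h4
    cases d <;> cases d' <;> simp at this ⊢ <;> exact this
  · rintro ⟨T, h1, h2, h3, h4, h5⟩ ⟨q, d⟩ ⟨e, d'⟩ ⟨q', h6, h7⟩ hn
    have hq : q ∈ T := by
      cases d
      · exact h2 q hn
      · exact h1 q hn
    have hq' : q' ∈ T := by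
      clear h7
      induction h6 with
      | refl => exact hq
      | tail _ h ih => exact h4 _ ih _ h
    cases d'
    · exact h3 _ hq' _ h7
    · exact h5 _ hq' _ h7
  · intro h
    refine ⟨{q' | ∃ n : Q × Bool, n ∈ (bif n.2 then A else B) ∧ Relation.ReflTransGen s n.1 q'},
      fun q hq => ⟨(q, true), hq, .refl⟩, fun q hq => ⟨(q, false), hq, .refl⟩, ?_, ?_, ?_⟩
    · rintro q ⟨n, h1, h2⟩ q' h3
      exact h n (q', false) ⟨q, h2, h3⟩ h1
    · rintro q ⟨n, h1, h2⟩ q' h3
      exact ⟨n, h1, h2.tail h3⟩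
    · rintro q ⟨n, h1, h2⟩ q' h3
      exact h n (q', true) ⟨q, h2, h3⟩ h1

theorem prod_r_iff {P : Type u} (l : List (Lat P)) (A B : Set P) :
    l.prod.r A B ↔ ∃ S : ℕ → Set P, S 0 = A ∧ S l.length = B ∧
      ∀ i (h : i < l.length), l[i].r (S i) (S (i + 1)) := by
  induction l generalizing A with
  | nil =>
    simp only [List.prod_nil, one_r, List.length_nil]
    constructor
    · rintro rfl; exact ⟨fun _ => A, rfl, rfl, fun i h => absurd h (by omega)⟩
    · rintro ⟨S, h1, h2, -⟩; exact h1.symm.trans h2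
  | cons x l ih =>
    rw [List.prod_cons, mul_r]
    constructor
    · rintro ⟨C, h1, h2⟩
      obtain ⟨S, h3, h4, h5⟩ := (ih C).1 h2
      refine ⟨fun i => Nat.casesOn i A S, rfl, h4, fun i h => ?_⟩
      cases i with
      | zero => simpa [h3] using h1
      | succ i => exact h5 i (by simpa using h)
    · rintro ⟨S, h1, h2, h3⟩
      refine ⟨S 1, h1 ▸ h3 0 (by simp), (ih _).2 ⟨fun i => S (i + 1), rfl, h2, ?_⟩⟩
      intro i h
      exact h3 (i + 1) (by simpa using h)

variable {α : Type} {σ : Type u}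

/-- the normalised transition rules: accepting states hand over to a sweeping state -/
def dl (M : TwoWayNFA α σ) (c : Cell α) : Option σ → Set (Option σ × HeadMove)
  | none => {(none, HeadMove.moveRight)}
  | some q => {p | (q ∈ M.accept ∧ p = (none, HeadMove.moveRight)) ∨ (q ∉ M.accept ∧
      ∃ q', p.1 = some q' ∧ (q', p.2) ∈ M.step q c ∧ ¬ (c = Cell.leftEnd ∧ p.2 = HeadMove.moveLeft) ∧
        ¬ (c = Cell.rightEnd ∧ p.2 = HeadMove.moveRight))}

theorem dl_subsingleton {M : TwoWayNFA α σ} (hM : M.IsDeterministic) (c : Cell α) (q : Option σ) :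
    (dl M c q).Subsingleton := by
  cases q with
  | none => exact Set.subsingleton_singleton
  | some q =>
    rintro ⟨p, m⟩ (⟨h1, h2⟩ | ⟨h1, q1, h2, h3, -⟩) ⟨p', m'⟩ (⟨h4, h5⟩ | ⟨h4, q2, h5, h6, -⟩)
    · rw [h2, h5]
    · exact absurd h1 h4
    · exact absurd h4 h1
    · have := hM q c h3 h6
      simp only [Prod.mk.injEq] at this h2 h5 ⊢
      exact ⟨by rw [h2, h5, this.1], this.2⟩

/-- closed-set relation of a cell for the machine `M` -/
def cl (M : TwoWayNFA α σ) (c : Cell α) : Lat (Option σ × Bool) := cellLat (dl M c)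

/-- closed-set relation of a word -/
def wl (M : TwoWayNFA α σ) (w : List α) : Lat (Option σ × Bool) :=
  (w.map fun a => cl M (Cell.letter a)).prod

theorem wl_append (M : TwoWayNFA α σ) (u v : List α) : wl M (u ++ v) = wl M u * wl M v := by
  simp [wl, List.prod_append]

theorem wl_fn {M : TwoWayNFA α σ} (hM : M.IsDeterministic) {w : List α} (hw : w ≠ []) :
    Fn (wl M w) := by
  induction w with
  | nil => exact absurd rfl hw
  | cons a w ih =>
    by_cases h : w = []
    · subst h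
      simpa [wl, cl] using cellLat_fn (dl_subsingleton hM (Cell.letter a))
    · exact (cellLat_fn (dl_subsingleton hM _)).mul (ih h)

theorem scan_zero (w : List α) : scan w 0 = Cell.leftEnd := by simp [scan]

theorem scan_succ (w : List α) (i : ℕ) (h : i < w.length) :
    scan w (i + 1) = Cell.letter w[i] := by simp [scan, h]

theorem scan_end (w : List α) : scan w (w.length + 1) = Cell.rightEnd := by simp [scan]

theorem scan_eq_left {w : List α} {i : ℕ} (h : scan w i = Cell.leftEnd) : i = 0 := by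
  by_contra hi
  unfold scan at h
  rw [if_neg hi] at h
  split at h <;> cases h

theorem scan_eq_right {w : List α} {i : ℕ} (h : scan w i = Cell.rightEnd) : w.length + 1 ≤ i := by
  by_contra hi
  cases i with
  | zero => rw [scan_zero] at h; cases h
  | succ i => rw [scan_succ w i (by omega)] at h; cases h

theorem tape_iff (M : TwoWayNFA α σ) (w : List α) (A B : Set (Option σ × Bool)) :
    (cl M Cell.leftEnd * wl M w * cl M Cell.rightEnd).r A B ↔
      ∃ S : ℕ → Set (Option σ × Bool), S 0 = A ∧ S (w.length + 2) = B ∧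
        ∀ i, i < w.length + 2 → (cl M (scan w i)).r (S i) (S (i + 1)) := by
  have h1 : cl M Cell.leftEnd * wl M w * cl M Cell.rightEnd =
      ((List.range (w.length + 2)).map fun i => cl M (scan w i)).prod := by
    rw [List.range_succ, List.range_succ_eq_map]
    simp only [List.map_append, List.map_cons, List.map_nil, List.prod_append, List.prod_cons,
      List.prod_nil, mul_one, scan_zero, scan_end, List.map_map]
    congr 2
    unfold wl
    congr 1
    apply List.ext_getElem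
    · simp
    · intro i h1 h2
      simp only [List.length_map] at h1
      simp [scan_succ w i h1]
  rw [h1, prod_r_iff]
  simp

theorem not_accepts_iff (M : TwoWayNFA α σ) (w : List α) :
    ¬ M.Accepts w ↔ ∃ A B, (cl M Cell.leftEnd * wl M w * cl M Cell.rightEnd).r A B ∧
      (some M.start, true) ∈ A ∧ (none, true) ∉ B := by
  constructor
  · intro hna
    let Z : σ → ℕ → Prop := fun q i => Relation.ReflTransGen (M.Step w) (M.start, 0) (q, i)
    have hZ : ∀ q i, Z q i → q ∉ M.accept := fun q i h hq => hna ⟨(q, i), h, hq⟩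
    let S : ℕ → Set (Option σ × Bool) := fun i =>
      {n | ∃ q, n.1 = some q ∧ ((n.2 = true ∧ Z q i) ∨ (n.2 = false ∧ ∃ j, i = j + 1 ∧ Z q j))}
    refine ⟨S 0, S (w.length + 2), (tape_iff M w _ _).2 ⟨S, rfl, rfl, fun i hi => ?_⟩,
      ⟨M.start, rfl, Or.inl ⟨rfl, .refl⟩⟩, ?_⟩
    · refine ⟨{o | ∃ q, o = some q ∧ Z q i}, ?_, ?_, ?_, ?_, ?_⟩
      · rintro o ⟨q, h1, ⟨-, h2⟩ | ⟨h2, -⟩⟩
        · exact ⟨q, h1, h2⟩
        · cases h2
      · rintro o ⟨q, h1, ⟨h2, -⟩ | ⟨-, j, h2, h3⟩⟩
        · cases h2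
        · obtain rfl : i = j := by omega
          exact ⟨q, h1, h3⟩
      · rintro _ ⟨q, rfl, h1⟩ o (⟨h2, -⟩ | ⟨-, q', h2, h3, h4, -⟩)
        · exact absurd h2 (hZ q i h1)
        · have hi0 : i ≠ 0 := by
            rintro rfl
            exact h4 ⟨scan_zero w, rfl⟩
          refine ⟨q', h2, Or.inr ⟨rfl, i - 1, by omega, h1.tail ⟨_, h3, ?_⟩⟩⟩
          simp [movePos, hi0]
      · rintro _ ⟨q, rfl, h1⟩ o (⟨h2, -⟩ | ⟨-, q', h2, h3, -⟩)
        · exact absurd h2 (hZ q i h1)
        · exact ⟨q', h2, h1.tail ⟨_, h3, rfl⟩⟩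
      · rintro _ ⟨q, rfl, h1⟩ o (⟨h2, -⟩ | ⟨-, q', h2, h3, -, h4⟩)
        · exact absurd h2 (hZ q i h1)
        · have hi0 : ¬ w.length + 1 ≤ i := by
            intro h
            obtain rfl : i = w.length + 1 := by omega
            exact h4 ⟨scan_end w, rfl⟩
          refine ⟨q', h2, Or.inl ⟨rfl, h1.tail ⟨_, h3, ?_⟩⟩⟩
          simp [movePos, hi0]
    · rintro ⟨q, h, -⟩
      cases h
  · rintro ⟨A, B, hr, hA, hB⟩ ⟨⟨qf, i_f⟩, hp, hacc⟩
    obtain ⟨S, rfl, rfl, hS⟩ := (tape_iff M w _ _).1 hr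
    choose! T h1 h2 h3 h4 h5 using hS
    have sweep : ∀ i, i ≤ w.length + 2 → (none, true) ∉ S i := by
      intro i hi
      induction hi using Nat.decreasingInduction with
      | self => exact hB
      | of_succ k hk ih => exact fun h => ih (h5 k hk _ (h1 k hk _ h) none rfl)
    have nacc : ∀ q i, i < w.length + 2 → some q ∈ T i → q ∉ M.accept := fun q i hi h hq =>
      sweep (i + 1) hi (h5 i hi _ h none (Or.inl ⟨hq, rfl⟩))
    have inv : ∀ c : σ × ℕ, Relation.ReflTransGen (M.Step w) (M.start, 0) c →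
        c.2 < w.length + 2 ∧ some c.1 ∈ T c.2 := by
      intro c hc
      induction hc with
      | refl => exact ⟨by simp, h1 0 (by simp) _ hA⟩
      | tail _ h ih =>
        rename_i b c _
        obtain ⟨q, i⟩ := b
        obtain ⟨q', j⟩ := c
        obtain ⟨hi, hq⟩ := ih
        obtain ⟨m, h6, h7⟩ := h
        simp only at hi hq h6 h7 ⊢
        have h8 := nacc q i hi hq
        cases m with
        | moveLeft =>
          have hi0 : i ≠ 0 := by rintro rfl; simp [movePos] at h7
          obtain rfl : i = j + 1 := by simp [movePos, hi0] at h7; omega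
          refine ⟨by omega, h2 j (by omega) _ (h3 _ hi _ hq _ (Or.inr ⟨h8, q', rfl, h6, ?_, ?_⟩))⟩
          · rintro ⟨h, -⟩; exact hi0 (scan_eq_left h)
          · rintro ⟨-, h⟩; cases h
        | stay =>
          obtain rfl : i = j := by simpa [movePos] using h7
          refine ⟨hi, h4 _ hi _ hq _ (Or.inr ⟨h8, q', rfl, h6, ?_, ?_⟩)⟩
          · rintro ⟨-, h⟩; cases h
          · rintro ⟨-, h⟩; cases h
        | moveRight =>
          have hi0 : ¬ w.length + 1 ≤ i := by intro h; simp [movePos, h] at h7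
          obtain rfl : i + 1 = j := by simpa [movePos, hi0] using h7
          refine ⟨by omega, h1 _ (by omega) _ (h5 _ hi _ hq _ (Or.inr ⟨h8, q', rfl, h6, ?_, ?_⟩))⟩
          · rintro ⟨-, h⟩; cases h
          · rintro ⟨h, -⟩; exact hi0 (scan_eq_right h)
    obtain ⟨h6, h7⟩ := inv _ hp
    exact nacc _ _ h6 h7 hacc

theorem accepts_mono (M : TwoWayNFA α σ) {u v w w' : List α}
    (h : ∀ A B, (wl M w).r A B → (wl M w').r A B) (hw : M.Accepts (u ++ w' ++ v)) :
    M.Accepts (u ++ w ++ v) := by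
  by_contra hn
  refine absurd hw ?_
  rw [not_accepts_iff] at hn ⊢
  obtain ⟨A, B, hr, hA, hB⟩ := hn
  refine ⟨A, B, ?_, hA, hB⟩
  rw [wl_append, wl_append] at hr ⊢
  obtain ⟨C, ⟨D, h1, E, ⟨F, h2, h3⟩, h4⟩, h5⟩ := hr
  exact ⟨C, ⟨D, h1, E, ⟨F, h2, h _ _ h3⟩, h4⟩, h5⟩

theorem wordRel_append {h : ℕ} (u v : List (Fin h → Fin h → Bool)) :
    wordRel (u ++ v) = Relation.Comp (wordRel u) (wordRel v) := by
  induction u with
  | nil =>
    funext a c
    simp [wordRel, Relation.Comp]
  | cons R u ih =>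
    funext a c
    simp only [List.cons_append, wordRel, ih, Relation.Comp, eq_iff_iff]
    constructor
    · rintro ⟨b, h1, d, h2, h3⟩; exact ⟨d, ⟨b, h1, h2⟩, h3⟩
    · rintro ⟨d, ⟨b, h1, h2⟩, h3⟩; exact ⟨b, h1, d, h2, h3⟩

theorem live_sandwich {h : ℕ} (w : List (Fin h → Fin h → Bool)) (p q : Fin h) :
    ([fun a b => decide (a = p ∧ b = p)] ++ w ++ [fun a b => decide (a = q ∧ b = q)]) ∈
      liveness h ↔ wordRel w p q := by
  change (∃ a b, wordRel _ a b) ↔ _
  rw [wordRel_append, wordRel_append]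
  simp [wordRel, Relation.Comp]

/-- the semigroup of behaviours of nonempty words -/
def Beh {h : ℕ} (M : TwoWayNFA (Fin h → Fin h → Bool) σ) : Type u :=
  {x : Lat (Option σ × Bool) × (Fin h → Fin h → Prop) // ∃ w, w ≠ [] ∧ x = (wl M w, wordRel w)}

instance {h : ℕ} (M : TwoWayNFA (Fin h → Fin h → Bool) σ) : Semigroup (Beh M) where
  mul x y := ⟨(x.1.1 * y.1.1, Relation.Comp x.1.2 y.1.2), by
    obtain ⟨u, hu, hx⟩ := x.2
    obtain ⟨v, -, hy⟩ := y.2
    exact ⟨u ++ v, by simp [hu], by rw [hx, hy, wl_append, wordRel_append]⟩⟩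
  mul_assoc x y z := Subtype.ext (Prod.ext (mul_assoc _ _ _) (Relation.comp_assoc ..))

instance {h : ℕ} [Finite σ] (M : TwoWayNFA (Fin h → Fin h → Bool) σ) : Finite (Beh M) :=
  inferInstanceAs (Finite {x : Lat (Option σ × Bool) × (Fin h → Fin h → Prop) //
    ∃ w, w ≠ [] ∧ x = (wl M w, wordRel w)})

theorem beh_surj {h : ℕ} (M : TwoWayNFA (Fin h → Fin h → Bool) σ) (r : Fin h → Fin h → Prop) :
    ∃ x : Beh M, x.1.2 = r := by
  classical
  refine ⟨⟨_, [fun a b => decide (r a b)], by simp, rfl⟩, ?_⟩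
  funext a b
  simp [wordRel]

theorem card_points [Fintype σ] :
    2 * Nat.card (Option σ × Bool) = 4 * (Fintype.card σ + 1) := by
  simp only [Nat.card_eq_fintype_card, Fintype.card_prod, Fintype.card_option, Fintype.card_bool]
  ring

theorem nfa_bound {h : ℕ} [Fintype σ] (M : TwoWayNFA (Fin h → Fin h → Bool) σ)
    (hM : M.language = (liveness h)ᶜ) (d : ℕ) (hd : 2 + 63 * d ≤ h) :
    2 ^ d ≤ 4 * (Fintype.card σ + 1) := by
  rw [← card_points]
  refine lower_bound (Γ := Beh M) (β := fun x => x.1.1) (φ := fun x => x.1.2) (fun _ _ => rfl)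
    (fun _ _ => rfl) (beh_surj M) (κ := 2) (Or.inl rfl) ?_ (k := 32) (by norm_num) (by norm_num) d
    (by simpa using hd)
  rintro ⟨_, wa, hwa, rfl⟩ ⟨_, wz, hwz, rfl⟩ - hle p q hz
  by_contra ha
  have hM' : ∀ w, M.Accepts w ↔ w ∉ liveness h := fun w => by
    change w ∈ M.language ↔ _
    rw [hM]; rfl
  have h1 := (hM' _).2 (fun h => ha ((live_sandwich wa p q).1 h))
  exact (hM' _).1 (accepts_mono M hle h1) ((live_sandwich wz p q).2 hz)

theorem dfa_bound {h : ℕ} [Fintype σ] (M : TwoWayNFA (Fin h → Fin h → Bool) σ)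
    (hdet : M.IsDeterministic) (hM : M.language = liveness h) (d : ℕ) (hd : 2 + 31 * d ≤ h) :
    2 ^ d ≤ 4 * (Fintype.card σ + 1) := by
  rw [← card_points]
  have hfn : ∀ x : Beh M, Fn x.1.1 := by
    rintro ⟨_, w, hw, rfl⟩
    exact wl_fn hdet hw
  refine lower_bound (Γ := Beh M) (β := fun x => x.1.1) (φ := fun x => x.1.2) (fun _ _ => rfl)
    (fun _ _ => rfl) (beh_surj M) (κ := 1) (Or.inr ⟨rfl, fun b _ => (hfn b).noFork⟩) ?_ (k := 16)
    (by norm_num) (by norm_num) d (by simpa using hd)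
  intro a z haz hle p q hz
  have hle' : ∀ A B, a.1.1.r A B → z.1.1.r A B := fun A B =>
    (hfn a).le_of_le (hfn z) (LocG.map (β := fun x : Beh M => x.1.1) (fun _ _ => rfl) haz) hle
  obtain ⟨_, wa, hwa, rfl⟩ := a
  obtain ⟨_, wz, hwz, rfl⟩ := z
  have hM' : ∀ w, M.Accepts w ↔ w ∈ liveness h := fun w => by
    change w ∈ M.language ↔ _
    rw [hM]
  have h1 := (hM' _).2 ((live_sandwich wz p q).2 hz)
  exact (live_sandwich wa p q).1 ((hM' _).1 (accepts_mono M hle' h1))

/-- the one-way guessing machine -/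
def guess (h n : ℕ) (hn : h + 2 ≤ n) : TwoWayNFA (Fin h → Fin h → Bool) (Fin n) where
  start := ⟨h, by omega⟩
  accept := {q | q.1 = h + 1}
  step q c := match c with
    | Cell.leftEnd => {p | q.1 = h ∧ p.1.1 < h ∧ p.2 = HeadMove.moveRight}
    | Cell.letter R => {p | p.2 = HeadMove.moveRight ∧ ∃ a b : Fin h, q.1 = a.1 ∧ p.1.1 = b.1 ∧
        R a b = true}
    | Cell.rightEnd => {p | q.1 < h ∧ p.1.1 = h + 1 ∧ p.2 = HeadMove.stay}

theorem guess_noLeft (h n : ℕ) (hn : h + 2 ≤ n) : (guess h n hn).NoLeftMoves := by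
  rintro q c ⟨p, m⟩ hp
  cases c with
  | leftEnd => obtain ⟨-, -, h3⟩ := hp; simp only at h3 ⊢; rw [h3]; simp
  | letter R => obtain ⟨h3, -⟩ := hp; simp only at h3 ⊢; rw [h3]; simp
  | rightEnd => obtain ⟨-, -, h3⟩ := hp; simp only at h3 ⊢; rw [h3]; simp

theorem wordRel_take_succ {h : ℕ} (w : List (Fin h → Fin h → Bool)) (i : ℕ) (hi : i < w.length)
    (a c : Fin h) : wordRel (w.take (i + 1)) a c ↔ ∃ b, wordRel (w.take i) a b ∧ w[i] b c = true := by
  rw [List.take_succ_eq_append_getElem hi, wordRel_append]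
  simp [Relation.Comp, wordRel]

theorem guess_language (h n : ℕ) (hn : h + 2 ≤ n) : (guess h n hn).language = liveness h := by
  ext w
  constructor
  · rintro ⟨c, hc, hacc⟩
    have inv : ∀ c : Fin n × ℕ, Relation.ReflTransGen ((guess h n hn).Step w)
        ((guess h n hn).start, 0) c → (c.1.1 = h ∧ c.2 = 0) ∨
        (∃ i, c.2 = i + 1 ∧ i ≤ w.length ∧ ∃ a b : Fin h, c.1.1 = b.1 ∧ wordRel (w.take i) a b) ∨
        w ∈ liveness h := by
      intro c hc
      induction hc with
      | refl => exact Or.inl ⟨rfl, rfl⟩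
      | tail _ hs ih =>
        rename_i b c _
        obtain ⟨q, i⟩ := b
        obtain ⟨q', j⟩ := c
        obtain ⟨m, h1, h2⟩ := hs
        simp only at h1 h2 ih ⊢
        rcases ih with ⟨h3, rfl⟩ | ⟨i, rfl, hi, a, b, h3, h4⟩ | h3
        · rw [scan_zero] at h1
          obtain ⟨-, h5, h6⟩ := h1
          simp only at h5 h6
          subst h6
          obtain rfl : 1 = j := by simpa [movePos] using h2
          exact Or.inr (Or.inl ⟨0, rfl, by omega, ⟨_, h5⟩, ⟨_, h5⟩, rfl, rfl⟩)
        · rcases hi.lt_or_eq with hi | rfl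
          · rw [scan_succ w i hi] at h1
            obtain ⟨h5, a', b', h6, h7, h8⟩ := h1
            simp only at h5 h6 h7
            subst h5
            have : ¬ w.length ≤ i := by omega
            obtain rfl : i + 1 + 1 = j := by simpa [movePos, this] using h2
            obtain rfl : b = a' := Fin.ext (h3.symm.trans h6)
            exact Or.inr (Or.inl ⟨i + 1, rfl, hi, a, b', h7,
              (wordRel_take_succ w i hi _ _).2 ⟨b, h4, h8⟩⟩)
          · rw [List.take_length] at h4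
            exact Or.inr (Or.inr ⟨a, b, h4⟩)
        · exact Or.inr (Or.inr h3)
    have hacc' : c.1.1 = h + 1 := hacc
    rcases inv c hc with ⟨h1, -⟩ | ⟨i, -, -, a, b, h1, -⟩ | h1
    · omega
    · have := b.2; omega
    · exact h1
  · rintro ⟨a, b, hab⟩
    have run : ∀ i, i ≤ w.length → ∀ b : Fin h, wordRel (w.take i) a b →
        Relation.ReflTransGen ((guess h n hn).Step w) ((guess h n hn).start, 0)
          (⟨b.1, by omega⟩, i + 1) := by
      intro i
      induction i with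
      | zero =>
        intro _ b _
        refine Relation.ReflTransGen.single ⟨HeadMove.moveRight, ?_, by simp [movePos]⟩
        rw [scan_zero]
        exact ⟨rfl, b.2, rfl⟩
      | succ i ih =>
        intro hi c hc
        obtain ⟨b, h1, h2⟩ := (wordRel_take_succ w i hi _ _).1 hc
        refine (ih (by omega) b h1).tail ⟨HeadMove.moveRight, ?_, ?_⟩
        · simp only
          rw [scan_succ w i hi]
          exact ⟨rfl, b, c, rfl, rfl, h2⟩
        · have : ¬ w.length ≤ i := by omega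
          simp [movePos, this]
    refine ⟨(⟨h + 1, by omega⟩, w.length + 1), (run w.length le_rfl b
      (by rwa [List.take_length])).tail ⟨HeadMove.stay, ?_, rfl⟩, rfl⟩
    simp only
    rw [scan_end]
    exact ⟨b.2, rfl, rfl⟩

end Crest.Agent.R294
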