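import Crest.Agent.R294.Lat

/-!
Classes of crossing points, the potential inequality and the blocking lemma.
-/

set_option autoImplicit false

namespace Crest.Agent.R294

universe u

namespace Lat

variable {P : Type u}

/-- choose a reading direction -/
def tw (d : Bool) (x : Lat P) : Lat P := bif d then x else x.op

theorem Loc.tw {a y : Lat P} (h : Loc a y) (d : Bool) : Loc (tw d a) (tw d y) := by
  cases d
  · exact h.op
  · exact h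

/-- crossing in either direction -/
def cr (a x : Lat P) (n n' : P × Bool) : Prop :=
  n.2 = n'.2 ∧ cr1 (tw n.2 a) (tw n.2 x) n.1 n'.1

theorem cr_left {a y : Lat P} (ha : Loc a a) (hy : Loc a y) {n m n' : P × Bool}
    (h1 : cr a a n m) (h2 : cr a y m n') : cr a y n n' := by
  obtain ⟨q, d⟩ := n; obtain ⟨m, d1⟩ := m; obtain ⟨q', d2⟩ := n'
  obtain ⟨h1, h1'⟩ := h1; obtain ⟨h2, h2'⟩ := h2
  simp only at h1 h2; subst h1 h2
  exact ⟨rfl, cr1_left (ha.tw _) (hy.tw _) h1' h2'⟩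

theorem cr_right {a y : Lat P} (ha : Loc a a) (hy : Loc a y) {n m n' : P × Bool}
    (h1 : cr a y n m) (h2 : cr a a m n') : cr a y n n' := by
  obtain ⟨q, d⟩ := n; obtain ⟨m, d1⟩ := m; obtain ⟨q', d2⟩ := n'
  obtain ⟨h1, h1'⟩ := h1; obtain ⟨h2, h2'⟩ := h2
  simp only at h1 h2; subst h1 h2
  exact ⟨rfl, cr1_right (ha.tw _) (hy.tw _) h1' h2'⟩

theorem cr_loop_mul {a x y : Lat P} (hx : Loc a x) (hy : Loc a y) {n : P × Bool}
    (h1 : cr a x n n) (h2 : cr a y n n) : cr a (x * y) n n := by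
  obtain ⟨q, d⟩ := n
  refine ⟨rfl, ?_⟩
  cases d
  · have := cr1_mul hy.op hx.op h2.2 h1.2
    rw [← op_mul] at this
    exact this
  · exact cr1_mul hx hy h1.2 h2.2

theorem cr_mono {c e x : Lat P} (he : Loc c e) {n n' : P × Bool} (h : cr c x n n') :
    cr e x n n' := ⟨h.1, cr1_mono (he.tw _) h.2⟩

theorem cr_up_left {c e : Lat P} (he : Loc c e) {n m n' : P × Bool}
    (h1 : cr c c n m) (h2 : cr e e m n') : cr e e n n' := by
  obtain ⟨q, d⟩ := n; obtain ⟨m, d1⟩ := m; obtain ⟨q', d2⟩ := n'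
  obtain ⟨h1, h1'⟩ := h1; obtain ⟨h2, h2'⟩ := h2
  simp only at h1 h2; subst h1 h2
  exact ⟨rfl, cr1_up_left (he.tw _) h1' h2'⟩

theorem cr_up_right {c e : Lat P} (he : Loc c e) {n m n' : P × Bool}
    (h1 : cr e e n m) (h2 : cr c c m n') : cr e e n n' := by
  obtain ⟨q, d⟩ := n; obtain ⟨m, d1⟩ := m; obtain ⟨q', d2⟩ := n'
  obtain ⟨h1, h1'⟩ := h1; obtain ⟨h2, h2'⟩ := h2
  simp only at h1 h2; subst h1 h2
  exact ⟨rfl, cr1_up_right (he.tw _) h1' h2'⟩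

theorem cr_descend [Finite P] {c e : Lat P} (hc : Loc c c) (hee : Loc e e) (he : Loc c e)
    {n : P × Bool} (h : cr e e n n) : ∃ l f, cr c c l l ∧ cr c c f f ∧ cr c e l f ∧
      cr e e n l ∧ cr e e f n := by
  obtain ⟨q, d⟩ := n
  obtain ⟨l, f, h1, h2, h3, h4, h5⟩ := cr1_descend (hc.tw d) (hee.tw d) (he.tw d) h.2
  exact ⟨(l, d), (f, d), ⟨rfl, h1⟩, ⟨rfl, h2⟩, ⟨rfl, h3⟩, ⟨rfl, h4⟩, ⟨rfl, h5⟩⟩

theorem le_of_cr_loops [Finite P] {a z : Lat P} (ha : Loc a a) (hz : Loc a z)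
    (h : ∀ n, cr a a n n → cr a z n n) {A D : Set P} (hr : z.r A D) : a.r A D :=
  le_of_loops ha hz (fun l hl => (h (l, true) ⟨rfl, hl⟩).2)
    (fun l hl => (h (l, false) ⟨rfl, hl⟩).2) hr

/-- the class of a point -/
def cls (a : Lat P) (n : P × Bool) : Set (P × Bool) := {n' | cr a a n n' ∧ cr a a n' n}

theorem cls_eq {a : Lat P} (ha : Loc a a) {n n' : P × Bool} (h1 : cr a a n n') (h2 : cr a a n' n) :
    cls a n = cls a n' := by
  ext m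
  exact ⟨fun h => ⟨cr_left ha ha h2 h.1, cr_left ha ha h.2 h1⟩,
    fun h => ⟨cr_left ha ha h1 h.1, cr_left ha ha h.2 h2⟩⟩

theorem cr_of_cls_eq {a : Lat P} {n n' : P × Bool} (hn : cr a a n n) (h : cls a n = cls a n') :
    cr a a n' n ∧ cr a a n n' := by
  have : n ∈ cls a n := ⟨hn, hn⟩
  rw [h] at this
  exact this

/-- number of classes met by a set of points -/
noncomputable def cnt (a : Lat P) (M : Set (P × Bool)) : ℕ := (cls a '' M).ncard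

theorem ncard_le_of_rel {α β : Type*} [Finite β] {A : Set α} {B : Set β} (R : α → β → Prop)
    (h1 : ∀ a ∈ A, ∃ b ∈ B, R a b)
    (h2 : ∀ a ∈ A, ∀ a' ∈ A, ∀ b, R a b → R a' b → a = a') : A.ncard ≤ B.ncard := by
  classical
  by_cases hA : A.Nonempty
  · obtain ⟨a0, ha0⟩ := hA
    obtain ⟨b0, -, -⟩ := h1 a0 ha0
    have : Nonempty β := ⟨b0⟩
    choose! f hf1 hf2 using h1
    exact Set.ncard_le_ncard_of_injOn f hf1
      (fun a ha a' ha' h => h2 a ha a' ha' (f a) (hf2 a ha) (h ▸ hf2 a' ha')) (Set.toFinite _)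
  · rw [Set.not_nonempty_iff_eq_empty] at hA
    simp [hA]

theorem ncard_prod_bool {β : Type*} [Finite β] (B : Set β) :
    (B ×ˢ (Set.univ : Set Bool)).ncard = 2 * B.ncard := by
  rw [Set.ncard_prod, Set.ncard_univ, Nat.card_eq_fintype_card, Fintype.card_bool, mul_comm]

/-- points that are loops of `a` but not of `z` -/
def lost (a z : Lat P) : Set (P × Bool) := {n | cr a a n n ∧ ¬ cr a z n n}

/-- loop points whose class avoids the set `Sf` -/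
def uns (Sf : Set (P × Bool)) (a : Lat P) : Set (P × Bool) :=
  {n | cr a a n n ∧ ∀ m ∈ Sf, m ∉ cls a n}

theorem potential [Finite P] {c e : Lat P} (hc : Loc c c) (hee : Loc e e) (he : Loc c e)
    {Sf : Set (P × Bool)} (hSf : ∀ m ∈ Sf, cr c e m m) :
    2 * cnt e (uns Sf e) + cnt c (lost c e) ≤ 2 * cnt c (uns Sf c) := by
  classical
  -- lost classes are unsafe
  have hsub : lost c e ⊆ uns Sf c := by
    intro n hn
    refine ⟨hn.1, fun m hm hmn => hn.2 ?_⟩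
    exact cr_right hc he (cr_left hc he hmn.1 (hSf m hm)) hmn.2
  -- classes of `c` are contained in classes of `e`
  have hcont : ∀ n l, cr e e n l → cr e e l n → cls c l ⊆ cls e n := fun n l h1 h2 l' hl' =>
    ⟨cr_up_right he h1 hl'.1, cr_up_left he hl'.2 h2⟩
  set L := cls c '' lost c e with hL
  set U := cls c '' uns Sf c with hU
  set U1 : Set (Set (P × Bool)) := {κ | κ ∈ cls e '' uns Sf e ∧ ∃ κ' ∈ U \ L, κ' ⊆ κ} with hU1
  set U2 : Set (Set (P × Bool)) := {κ | κ ∈ cls e '' uns Sf e ∧ ¬ ∃ κ' ∈ U \ L, κ' ⊆ κ} with hU2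
  have hne : ∀ κ' ∈ U, κ'.Nonempty := by
    rintro _ ⟨n, hn, rfl⟩
    exact ⟨n, hn.1, hn.1⟩
  have hdisj : ∀ κ1 ∈ cls e '' uns Sf e, ∀ κ2 ∈ cls e '' uns Sf e, ∀ κ' ∈ U, κ' ⊆ κ1 → κ' ⊆ κ2 →
      κ1 = κ2 := by
    rintro _ ⟨n1, -, rfl⟩ _ ⟨n2, -, rfl⟩ κ' hκ' h1 h2
    obtain ⟨m, hm⟩ := hne κ' hκ'
    exact (cls_eq hee (h1 hm).1 (h1 hm).2).trans (cls_eq hee (h2 hm).1 (h2 hm).2).symm
  have hLU : L ⊆ U := Set.image_mono hsub
  have h1 : U1.ncard ≤ (U \ L).ncard := by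
    refine ncard_le_of_rel (fun κ κ' => κ' ∈ U ∧ κ' ⊆ κ) ?_ ?_
    · rintro κ ⟨-, κ', h1, h2⟩
      exact ⟨κ', h1, h1.1, h2⟩
    · intro κ1 h1 κ2 h2 κ' h3 h4
      exact hdisj κ1 h1.1 κ2 h2.1 κ' h3.1 h3.2 h4.2
  have h2 : (U2 ×ˢ (Set.univ : Set Bool)).ncard ≤ L.ncard := by
    have : ∀ κ ∈ U2, ∃ κ1 κ2, κ1 ∈ L ∧ κ2 ∈ L ∧ κ1 ≠ κ2 ∧ κ1 ⊆ κ ∧ κ2 ⊆ κ := by
      rintro _ ⟨⟨n, hn, rfl⟩, hno⟩
      obtain ⟨l, f, h1, h2, h3, h4, h5⟩ := cr_descend hc hee he hn.1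
      have h6 : cr e e l f := cr_mono he h3
      have h7 : cls c l ⊆ cls e n := hcont n l h4 (cr_left hee hee h6 h5)
      have h8 : cls c f ⊆ cls e n := hcont n f (cr_left hee hee h4 h6) h5
      have h9 : cls c l ∈ U := ⟨l, ⟨h1, fun m hm hml => hn.2 m hm (h7 hml)⟩, rfl⟩
      have h10 : cls c f ∈ U := ⟨f, ⟨h2, fun m hm hml => hn.2 m hm (h8 hml)⟩, rfl⟩
      have h11 : cls c l ∈ L := by
        by_contra h; exact hno ⟨_, ⟨h9, h⟩, h7⟩
      have h12 : cls c f ∈ L := by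
        by_contra h; exact hno ⟨_, ⟨h10, h⟩, h8⟩
      refine ⟨_, _, h11, h12, fun heq => ?_, h7, h8⟩
      obtain ⟨l', hl', hl'eq⟩ := h11
      have h13 := cr_of_cls_eq h1 heq
      have h14 := cr_of_cls_eq h1 hl'eq.symm
      exact hl'.2 (cr_right hc he (cr_left hc he h14.1 (cr_right hc he h3 h13.1)) h14.2)
    choose! k1 k2 hk1 hk2 hk3 hk4 hk5 using this
    refine ncard_le_of_rel (fun κd κ' => κ' = bif κd.2 then k1 κd.1 else k2 κd.1) ?_ ?_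
    · rintro ⟨κ, d⟩ ⟨hκ, -⟩
      cases d
      · exact ⟨_, hk2 κ hκ, rfl⟩
      · exact ⟨_, hk1 κ hκ, rfl⟩
    · rintro ⟨κ, d⟩ ⟨hκ, -⟩ ⟨κ', d'⟩ ⟨hκ', -⟩ b h1 h2
      simp only at hκ hκ' h1 h2
      have hb : b ∈ U ∧ b ⊆ κ := by
        cases d
        · exact h1 ▸ ⟨hLU (hk2 κ hκ), hk5 κ hκ⟩
        · exact h1 ▸ ⟨hLU (hk1 κ hκ), hk4 κ hκ⟩
      have hb' : b ⊆ κ' := by
        cases d'
        · exact h2 ▸ hk5 κ' hκ'
        · exact h2 ▸ hk4 κ' hκ'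
      have := hdisj κ hκ.1 κ' hκ'.1 b hb.1 hb.2 hb'
      subst this
      cases d <;> cases d'
      · rfl
      · exact absurd (h2.symm.trans h1) (hk3 κ hκ)
      · exact absurd (h1.symm.trans h2) (hk3 κ hκ)
      · rfl
  rw [ncard_prod_bool] at h2
  have h3 : (cls e '' uns Sf e).ncard ≤ U1.ncard + U2.ncard := by
    refine le_trans (Set.ncard_le_ncard (t := U1 ∪ U2) ?_) (Set.ncard_union_le _ _)
    intro κ hκ
    by_cases h : ∃ κ' ∈ U \ L, κ' ⊆ κ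
    · exact Or.inl ⟨hκ, h⟩
    · exact Or.inr ⟨hκ, h⟩
  have h4 : (U \ L).ncard + L.ncard = U.ncard := Set.ncard_sdiff_add_ncard_of_subset hLU
  unfold cnt
  rw [← hL, ← hU]
  omega

/-- a chain of closed sets through `X`, `a`, `Y` in the context `b` -/
def chain (b X a Y : Lat P) (S0 S1 S2 S3 : Set P) : Prop :=
  b.ran S0 ∧ X.r S0 S1 ∧ a.r S1 S2 ∧ Y.r S2 S3 ∧ b.dom S3

theorem chain_sup {b X a Y : Lat P} {ι : Type u} (S0 S1 S2 S3 : ι → Set P)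
    (h : ∀ i, chain b X a Y (S0 i) (S1 i) (S2 i) (S3 i)) :
    chain b X a Y (⋃ i, S0 i) (⋃ i, S1 i) (⋃ i, S2 i) (⋃ i, S3 i) := by
  choose h1 h2 h3 h4 h5 using h
  choose A hA using h1
  choose B hB using h5
  exact ⟨⟨_, b.sup _ _ hA⟩, X.sup _ _ h2, a.sup _ _ h3, Y.sup _ _ h4, ⟨_, b.sup _ _ hB⟩⟩

theorem chain_inf {b X a Y : Lat P} {ι : Type u} (S0 S1 S2 S3 : ι → Set P)
    (h : ∀ i, chain b X a Y (S0 i) (S1 i) (S2 i) (S3 i)) :
    chain b X a Y (⋂ i, S0 i) (⋂ i, S1 i) (⋂ i, S2 i) (⋂ i, S3 i) := by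
  choose h1 h2 h3 h4 h5 using h
  choose A hA using h1
  choose B hB using h5
  exact ⟨⟨_, b.inf _ _ hA⟩, X.inf _ _ h2, a.inf _ _ h3, Y.inf _ _ h4, ⟨_, b.inf _ _ hB⟩⟩

/-- the path of `p` through the skeleton `X a Y` may pass through `m` -/
def blocks (b X a Y : Lat P) (p m : P × Bool) : Prop :=
  (∀ S0 S1 S2 S3, chain b X a Y S0 S1 S2 S3 → p.1 ∈ (bif p.2 then S0 else S3) →
    m.1 ∈ (bif m.2 then S1 else S2)) ∧
  (∀ S0 S1 S2 S3, chain b X a Y S0 S1 S2 S3 → m.1 ∈ (bif m.2 then S2 else S1) →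
    p.1 ∈ (bif p.2 then S3 else S0))

theorem cr_iff_chain {b X a Y : Lat P} {p p' : P × Bool} (hd : p.2 = p'.2) :
    cr b (X * a * Y) p p' ↔ ∀ S0 S1 S2 S3, chain b X a Y S0 S1 S2 S3 →
      p.1 ∈ (bif p.2 then S0 else S3) → p'.1 ∈ (bif p'.2 then S3 else S0) := by
  obtain ⟨q, d⟩ := p; obtain ⟨q', d'⟩ := p'
  simp only at hd; subst hd
  cases d
  · constructor
    · rintro ⟨-, h⟩ S0 S1 S2 S3 ⟨h1, h2, h3, h4, h5⟩ hq
      exact h S3 S0 h5 ⟨S2, ⟨S1, h2, h3⟩, h4⟩ h1 hq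
    · intro h
      refine ⟨rfl, ?_⟩
      rintro S3 S0 h5 ⟨S2, ⟨S1, h2, h3⟩, h4⟩ h1 hq
      exact h S0 S1 S2 S3 ⟨h1, h2, h3, h4, h5⟩ hq
  · constructor
    · rintro ⟨-, h⟩ S0 S1 S2 S3 ⟨h1, h2, h3, h4, h5⟩ hq
      exact h S0 S3 h1 ⟨S2, ⟨S1, h2, h3⟩, h4⟩ h5 hq
    · intro h
      refine ⟨rfl, ?_⟩
      rintro S0 S3 h1 ⟨S2, ⟨S1, h2, h3⟩, h4⟩ h5 hq
      exact h S0 S1 S2 S3 ⟨h1, h2, h3, h4, h5⟩ hq

theorem survive [Finite P] {b X a Y z : Lat P} (ha : Loc a a) (hz : Loc a z) (hX : X * a = X)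
    (hY : a * Y = Y) {p : P × Bool} (hp : cr b (X * a * Y) p p)
    (hb : ∀ m, cr a a m m → blocks b X a Y p m → cr a z m m) : cr b (X * z * Y) p p := by
  rw [cr_iff_chain rfl] at hp ⊢
  intro T0 T1 T2 T3 hT hpT
  by_contra hpT'
  -- the least chain containing the entry point
  obtain ⟨R0, R1, R2, R3, hR, hpR, hRmin⟩ : ∃ R0 R1 R2 R3, chain b X a Y R0 R1 R2 R3 ∧
      p.1 ∈ (bif p.2 then R0 else R3) ∧ ∀ S0 S1 S2 S3, chain b X a Y S0 S1 S2 S3 →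
        p.1 ∈ (bif p.2 then S0 else S3) → R1 ⊆ S1 ∧ R2 ⊆ S2 := by
    refine ⟨_, _, _, _, chain_inf (ι := {T : Set P × Set P × Set P × Set P //
      chain b X a Y T.1 T.2.1 T.2.2.1 T.2.2.2 ∧ p.1 ∈ (bif p.2 then T.1 else T.2.2.2)})
      (fun T => T.1.1) (fun T => T.1.2.1) (fun T => T.1.2.2.1) (fun T => T.1.2.2.2)
      (fun T => T.2.1), ?_, ?_⟩
    · obtain ⟨q, d⟩ := p
      cases d
      · exact Set.mem_iInter.2 fun T => T.2.2
      · exact Set.mem_iInter.2 fun T => T.2.2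
    · intro S0 S1 S2 S3 hS hq
      exact ⟨Set.iInter_subset_of_subset ⟨(S0, S1, S2, S3), hS, hq⟩ le_rfl,
        Set.iInter_subset_of_subset ⟨(S0, S1, S2, S3), hS, hq⟩ le_rfl⟩
  -- the largest chain avoiding the exit point
  obtain ⟨K0, K1, K2, K3, hK, hpK, hKmax⟩ : ∃ K0 K1 K2 K3, chain b X a Y K0 K1 K2 K3 ∧
      p.1 ∉ (bif p.2 then K3 else K0) ∧ ∀ S0 S1 S2 S3, chain b X a Y S0 S1 S2 S3 →
        p.1 ∉ (bif p.2 then S3 else S0) → S1 ⊆ K1 ∧ S2 ⊆ K2 := by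
    refine ⟨_, _, _, _, chain_sup (ι := {T : Set P × Set P × Set P × Set P //
      chain b X a Y T.1 T.2.1 T.2.2.1 T.2.2.2 ∧ p.1 ∉ (bif p.2 then T.2.2.2 else T.1)})
      (fun T => T.1.1) (fun T => T.1.2.1) (fun T => T.1.2.2.1) (fun T => T.1.2.2.2)
      (fun T => T.2.1), ?_, ?_⟩
    · obtain ⟨q, d⟩ := p
      cases d
      · intro h
        obtain ⟨T, hT⟩ := Set.mem_iUnion.1 h
        exact T.2.2 hT
      · intro h
        obtain ⟨T, hT⟩ := Set.mem_iUnion.1 h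
        exact T.2.2 hT
    · intro S0 S1 S2 S3 hS hq
      exact ⟨Set.subset_iUnion_of_subset ⟨(S0, S1, S2, S3), hS, hq⟩ le_rfl,
        Set.subset_iUnion_of_subset ⟨(S0, S1, S2, S3), hS, hq⟩ le_rfl⟩
  -- shifting chains
  have shiftL : ∀ S0 S1 S2 S3, chain b X a Y S0 S1 S2 S3 →
      ∃ S, chain b X a Y S0 S S2 S3 ∧ a.ran S ∧ a.r S S1 := by
    rintro S0 S1 S2 S3 ⟨h1, h2, h3, h4, h5⟩
    rw [← hX] at h2
    obtain ⟨S, hS1, hS2⟩ := h2
    refine ⟨S, ⟨h1, hS1, ?_, h4, h5⟩, ran_of_right hX hS1, hS2⟩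
    rw [← ha.1]; exact ⟨S1, hS2, h3⟩
  have shiftR : ∀ S0 S1 S2 S3, chain b X a Y S0 S1 S2 S3 →
      ∃ S, chain b X a Y S0 S1 S S3 ∧ a.dom S ∧ a.r S2 S := by
    rintro S0 S1 S2 S3 ⟨h1, h2, h3, h4, h5⟩
    rw [← hY] at h4
    obtain ⟨S, hS1, hS2⟩ := h4
    refine ⟨S, ⟨h1, h2, ?_, hS2, h5⟩, dom_of_left hY hS2, hS1⟩
    rw [← ha.1]; exact ⟨S2, h3, hS1⟩
  obtain ⟨hT1, hT2, hT3, hT4, hT5⟩ := hT
  have key : a.r (T1 ∩ R1 ∪ K1) (T2 ∩ R2 ∪ K2) := by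
    apply a.of_cover
    · rintro q (hq | hq)
      · obtain ⟨A', B', h1, h2, h3⟩ := a.exists_min q
        refine ⟨A', B', h1, h2, ?_, ?_⟩
        · obtain ⟨W, hW⟩ := dom_of_left hz.1 hT3
          exact fun n hn => Or.inl ⟨(h3 _ _ hW hq.1).1 hn, (h3 _ _ hR.2.2.1 hq.2).1 hn⟩
        · intro n hn
          by_cases hnK : n ∈ K2
          · exact Or.inr hnK
          refine Or.inl ⟨?_, (h3 _ _ hR.2.2.1 hq.2).2 hn⟩
          have h4 : cr1 a a q n := fun U V _ hx _ hq' => (h3 U V hx hq').2 hn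
          obtain ⟨l, h5, h6, h7⟩ := cr1_loop ha h4
          have h8 : blocks b X a Y p (l, true) := by
            constructor
            · intro S0 S1 S2 S3 hS hpS
              obtain ⟨S, hS1, hS2, hS3⟩ := shiftL _ _ _ _ hS
              exact h5 S S1 hS2 hS3 ⟨S2, hS.2.2.1⟩ ((hRmin _ _ _ _ hS1 hpS).1 hq.2)
            · intro S0 S1 S2 S3 hS hl
              obtain ⟨S, hS1, hS2, hS3⟩ := shiftR _ _ _ _ hS
              by_contra hpS
              exact hnK ((hKmax _ _ _ _ hS1 hpS).2 (h7 S2 S ⟨S1, hS.2.2.1⟩ hS3 hS2 hl))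
          have h9 : cr1 a z l l := (hb (l, true) ⟨rfl, h6⟩ h8).2
          exact cr1_right ha hz (cr1_left ha hz h5 h9) h7 T1 T2 (ran_of_right hX hT2) hT3
            (dom_of_left hY hT4) hq.1
      · exact ⟨K1, K2, hK.2.2.1, hq, Set.subset_union_right, Set.subset_union_right⟩
    · rintro q (hq | hq)
      · obtain ⟨B', A', h1, h2, h3⟩ := a.op.exists_min q
        refine ⟨A', B', h1, h2, ?_, ?_⟩
        · intro n hn
          by_cases hnK : n ∈ K1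
          · exact Or.inr hnK
          refine Or.inl ⟨?_, (h3 _ _ hR.2.2.1 hq.2).2 hn⟩
          have h4 : cr1 a.op a.op q n := fun U V _ hx _ hq' => (h3 U V hx hq').2 hn
          obtain ⟨l, h5, h6, h7⟩ := cr1_loop ha.op h4
          have h8 : blocks b X a Y p (l, false) := by
            constructor
            · intro S0 S1 S2 S3 hS hpS
              obtain ⟨S, hS1, hS2, hS3⟩ := shiftR _ _ _ _ hS
              exact h5 S S2 hS2 hS3 ⟨S1, hS.2.2.1⟩ ((hRmin _ _ _ _ hS1 hpS).2 hq.2)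
            · intro S0 S1 S2 S3 hS hl
              obtain ⟨S, hS1, hS2, hS3⟩ := shiftL _ _ _ _ hS
              by_contra hpS
              exact hnK ((hKmax _ _ _ _ hS1 hpS).1 (h7 S1 S ⟨S2, hS.2.2.1⟩ hS3 hS2 hl))
          have h9 : cr1 a.op z.op l l := (hb (l, false) ⟨rfl, h6⟩ h8).2
          exact cr1_right ha.op hz.op (cr1_left ha.op hz.op h5 h9) h7 T2 T1
            (dom_of_left hY hT4) hT3 (ran_of_right hX hT2) hq.1
        · obtain ⟨W, hW⟩ := ran_of_right hz.2 hT3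
          exact fun n hn => Or.inl ⟨(h3 _ _ hW hq.1).1 hn, (h3 _ _ hR.2.2.1 hq.2).1 hn⟩
      · exact ⟨K1, K2, hK.2.2.1, hq, Set.subset_union_right, Set.subset_union_right⟩
  have hfin : chain b X a Y (T0 ∩ R0 ∪ K0) (T1 ∩ R1 ∪ K1) (T2 ∩ R2 ∪ K2) (T3 ∩ R3 ∪ K3) := by
    refine ⟨?_, X.union (X.inter hT2 hR.2.1) hK.2.1, key,
      Y.union (Y.inter hT4 hR.2.2.2.1) hK.2.2.2.1, ?_⟩
    · obtain ⟨W1, h1⟩ := hT1
      obtain ⟨W2, h2⟩ := hR.1
      obtain ⟨W3, h3⟩ := hK.1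
      exact ⟨_, b.union (b.inter h1 h2) h3⟩
    · obtain ⟨W1, h1⟩ := hT5
      obtain ⟨W2, h2⟩ := hR.2.2.2.2
      obtain ⟨W3, h3⟩ := hK.2.2.2.2
      exact ⟨_, b.union (b.inter h1 h2) h3⟩
  obtain ⟨q, d⟩ := p
  cases d
  · rcases hp _ _ _ _ hfin (Or.inl ⟨hpT, hpR⟩) with h | h
    · exact hpT' h.1
    · exact hpK h
  · rcases hp _ _ _ _ hfin (Or.inl ⟨hpT, hpR⟩) with h | h
    · exact hpT' h.1
    · exact hpK h

theorem blocks_trans {b X a Y : Lat P} (hX : X * a = X) (hY : a * Y = Y) {p p' m m' : P × Bool}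
    (h1 : blocks b X a Y p m) (h2 : blocks b X a Y p' m') (h : cr a a m m')
    {S0 S1 S2 S3 : Set P} (hS : chain b X a Y S0 S1 S2 S3)
    (hp : p.1 ∈ (bif p.2 then S0 else S3)) : p'.1 ∈ (bif p'.2 then S3 else S0) := by
  have h3 := h1.1 _ _ _ _ hS hp
  refine h2.2 _ _ _ _ hS ?_
  obtain ⟨m, d⟩ := m; obtain ⟨m', d'⟩ := m'
  obtain ⟨h4, h5⟩ := h
  simp only at h4; subst h4
  cases d
  · exact h5 S2 S1 (dom_of_left hY hS.2.2.2.1) hS.2.2.1 (ran_of_right hX hS.2.1) h3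
  · exact h5 S1 S2 (ran_of_right hX hS.2.1) hS.2.2.1 (dom_of_left hY hS.2.2.2.1) h3

/-- no point at the middle cut of `b b` is forced to reach both outer cuts -/
def NoFork (b : Lat P) : Prop := ∀ p f f' : P,
  (∀ S0 S1 S2, b.r S0 S1 → b.r S1 S2 → p ∈ S1 → f ∈ S2) →
  (∀ S0 S1 S2, b.r S0 S1 → b.r S1 S2 → p ∈ S1 → f' ∈ S0) → False

theorem blocked_le [Finite P] {b X a Y : Lat P} (hb : Loc b b) (hX : X * a = X) (hY : a * Y = Y)
    (hbX : X * a * Y = b) {κ : ℕ} (hκ : κ = 2 ∨ (κ = 1 ∧ NoFork b)) {M : Set (P × Bool)}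
    (hM : ∀ m ∈ M, cr a a m m) :
    cnt b {p | cr b b p p ∧ ∃ m ∈ M, blocks b X a Y p m} ≤ κ * cnt a M := by
  have same : ∀ p p' m m', blocks b X a Y p m → blocks b X a Y p' m' → m ∈ M → m' ∈ M →
      cls a m = cls a m' → p.2 = p'.2 → cls b p = cls b p' := by
    intro p p' m m' h1 h2 hm hm' hc hd
    have h3 := cr_of_cls_eq (hM m hm) hc
    apply cls_eq hb
    · have := (cr_iff_chain (b := b) (X := X) (a := a) (Y := Y) hd).2
        fun _ _ _ _ hS hp => blocks_trans hX hY h1 h2 h3.2 hS hp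
      rwa [hbX] at this
    · have := (cr_iff_chain (b := b) (X := X) (a := a) (Y := Y) hd.symm).2
        fun _ _ _ _ hS hp => blocks_trans hX hY h2 h1 h3.1 hS hp
      rwa [hbX] at this
  rcases hκ with rfl | ⟨rfl, hnf⟩
  · unfold cnt
    rw [← ncard_prod_bool]
    refine ncard_le_of_rel (fun κ κd => ∃ p m, m ∈ M ∧ blocks b X a Y p m ∧ κ = cls b p ∧
      κd = (cls a m, p.2)) ?_ ?_
    · rintro _ ⟨p, ⟨-, m, hm, hbl⟩, rfl⟩
      exact ⟨_, ⟨⟨m, hm, rfl⟩, trivial⟩, p, m, hm, hbl, rfl, rfl⟩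
    · rintro _ - _ - _ ⟨p, m, hm, hbl, rfl, rfl⟩ ⟨p', m', hm', hbl', rfl, h⟩
      rw [Prod.mk.injEq] at h
      exact same p p' m m' hbl hbl' hm hm' h.1 h.2
  · unfold cnt
    rw [one_mul]
    have fork : ∀ q q' m m', cr b b (q, true) (q, true) → cr b b (q', false) (q', false) →
        blocks b X a Y (q, true) m → blocks b X a Y (q', false) m' → cr a a m m' → False := by
      intro q q' m m' h1 h2 h3 h4 h5
      obtain ⟨l, f, h6, h7, -⟩ := cr1_strict hb h1.2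
      obtain ⟨l', f', h8, h9, -⟩ := cr1_strict hb.op h2.2
      refine hnf q f f' ?_ ?_
      · intro S0 S1 S2 h10 h11 hq
        exact h7 _ _ h11 (h6 S1 ⟨_, h10⟩ ⟨_, h11⟩ hq)
      · intro S0 S1 S2 h10 h11 hq
        refine h9 _ _ h10 (h8 S1 ⟨_, h11⟩ ⟨_, h10⟩ ?_)
        obtain ⟨S, hS1, hS2⟩ := exists_succ hb ⟨_, h11⟩
        rw [← hbX] at hS2
        obtain ⟨W2, ⟨W1, hW1, hW2⟩, hW3⟩ := hS2
        exact blocks_trans hX hY h3 h4 h5 ⟨⟨_, h10⟩, hW1, hW2, hW3, hS1⟩ hq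
    refine ncard_le_of_rel (fun κ κd => ∃ p m, cr b b p p ∧ m ∈ M ∧ blocks b X a Y p m ∧
      κ = cls b p ∧ κd = cls a m) ?_ ?_
    · rintro _ ⟨p, ⟨hp, m, hm, hbl⟩, rfl⟩
      exact ⟨_, ⟨m, hm, rfl⟩, p, m, hp, hm, hbl, rfl, rfl⟩
    · rintro _ - _ - _ ⟨p, m, hp, hm, hbl, rfl, rfl⟩ ⟨p', m', hp', hm', hbl', rfl, h⟩
      refine same p p' m m' hbl hbl' hm hm' h ?_
      have h3 := cr_of_cls_eq (hM m hm) h
      obtain ⟨q, d⟩ := p; obtain ⟨q', d'⟩ := p'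
      cases d <;> cases d'
      · rfl
      · exact (fork _ _ _ _ hp' hp hbl' hbl h3.1).elim
      · exact (fork _ _ _ _ hp hp' hbl hbl' h3.2).elim
      · rfl

theorem cnt_mono [Finite P] (a : Lat P) {M M' : Set (P × Bool)} (h : M ⊆ M') :
    cnt a M ≤ cnt a M' := Set.ncard_le_ncard (Set.image_mono h)

theorem cnt_le [Finite P] (a : Lat P) (M : Set (P × Bool)) : cnt a M ≤ 2 * Nat.card P := by
  refine le_trans (Set.ncard_image_le) (le_trans (Set.ncard_le_card M) ?_)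
  rw [Nat.card_prod, Nat.card_eq_fintype_card (α := Bool), Fintype.card_bool, mul_comm]

theorem cnt_iUnion [Finite P] (a : Lat P) {ι : Type} [Fintype ι] (M : ι → Set (P × Bool))
    {μ : ℕ} (h : ∀ i, cnt a (M i) ≤ μ) : cnt a (⋃ i, M i) ≤ Fintype.card ι * μ := by
  unfold cnt
  rw [Set.image_iUnion]
  refine le_trans (Set.ncard_iUnion_le_of_fintype _) ?_
  calc ∑ i, (cls a '' M i).ncard ≤ ∑ _i : ι, μ := Finset.sum_le_sum fun i _ => h i
    _ = _ := by simp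

theorem lost_empty_of_cnt [Finite P] {a z : Lat P} (h : cnt a (lost a z) = 0) (n : P × Bool)
    (hn : cr a a n n) : cr a z n n := by
  by_contra hz
  unfold cnt at h
  rw [Set.ncard_eq_zero] at h
  have : cls a n ∈ cls a '' lost a z := ⟨n, ⟨hn, hz⟩, rfl⟩
  rw [h] at this
  exact this

end Lat

end Crest.Agent.R294
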