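import Mathlib

/-!
Closed-set relations: a segment of a two-way computation is recorded by the pairs of sets of
boundary points that are closed under the moves inside the segment.
-/

set_option autoImplicit false

namespace Crest.Agent.R294

universe u

/-- A relation between subsets of `P` closed under arbitrary unions and intersections. -/
@[ext] structure Lat (P : Type u) where
  r : Set P → Set P → Prop
  sup : ∀ {ι : Type u} (A B : ι → Set P), (∀ i, r (A i) (B i)) → r (⋃ i, A i) (⋃ i, B i)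
  inf : ∀ {ι : Type u} (A B : ι → Set P), (∀ i, r (A i) (B i)) → r (⋂ i, A i) (⋂ i, B i)

namespace Lat

variable {P : Type u}

instance : Mul (Lat P) where
  mul x y :=
    { r := fun A C => ∃ B, x.r A B ∧ y.r B C
      sup := fun A C h => by
        choose B h1 h2 using h
        exact ⟨_, x.sup _ _ h1, y.sup _ _ h2⟩
      inf := fun A C h => by
        choose B h1 h2 using h
        exact ⟨_, x.inf _ _ h1, y.inf _ _ h2⟩ }

instance : One (Lat P) where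
  one :=
    { r := fun A B => A = B
      sup := fun A B h => by simp only [h]
      inf := fun A B h => by simp only [h] }

theorem mul_r (x y : Lat P) (A C : Set P) : (x * y).r A C ↔ ∃ B, x.r A B ∧ y.r B C := Iff.rfl

theorem one_r (A B : Set P) : (1 : Lat P).r A B ↔ A = B := Iff.rfl

instance : Monoid (Lat P) where
  mul_assoc x y z := by
    ext A D
    simp only [mul_r]
    constructor
    · rintro ⟨C, ⟨B, h1, h2⟩, h3⟩; exact ⟨B, h1, C, h2, h3⟩
    · rintro ⟨B, h1, C, h2, h3⟩; exact ⟨C, ⟨B, h1, h2⟩, h3⟩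
  one_mul x := by
    ext A B
    simp only [mul_r, one_r]
    constructor
    · rintro ⟨C, rfl, h⟩; exact h
    · intro h; exact ⟨A, rfl, h⟩
  mul_one x := by
    ext A B
    simp only [mul_r, one_r]
    constructor
    · rintro ⟨C, h, rfl⟩; exact h
    · intro h; exact ⟨B, h, rfl⟩

instance [Finite P] : Finite (Lat P) :=
  Finite.of_injective (fun x : Lat P => x.r) (fun _ _ h => Lat.ext h)

theorem union (x : Lat P) {A B A' B' : Set P} (h : x.r A B) (h' : x.r A' B') :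
    x.r (A ∪ A') (B ∪ B') := by
  have := x.sup (ι := ULift.{u} Bool) (fun i => bif i.down then A else A')
    (fun i => bif i.down then B else B') (by rintro ⟨_ | _⟩ <;> simpa)
  convert this using 1 <;> ext q <;> simp [ULift.exists, or_comm]

theorem inter (x : Lat P) {A B A' B' : Set P} (h : x.r A B) (h' : x.r A' B') :
    x.r (A ∩ A') (B ∩ B') := by
  have := x.inf (ι := ULift.{u} Bool) (fun i => bif i.down then A else A')
    (fun i => bif i.down then B else B') (by rintro ⟨_ | _⟩ <;> simpa)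
  convert this using 1 <;> ext q <;> simp [ULift.forall, and_comm]

theorem empty (x : Lat P) : x.r ∅ ∅ := by
  have := x.sup (ι := PEmpty) (fun i => i.elim) (fun i => i.elim) (fun i => i.elim)
  simpa using this

theorem of_cover (x : Lat P) {A B : Set P}
    (h1 : ∀ q ∈ A, ∃ A' B', x.r A' B' ∧ q ∈ A' ∧ A' ⊆ A ∧ B' ⊆ B)
    (h2 : ∀ q ∈ B, ∃ A' B', x.r A' B' ∧ q ∈ B' ∧ A' ⊆ A ∧ B' ⊆ B) : x.r A B := by
  have := x.sup (ι := {T : Set P × Set P // x.r T.1 T.2 ∧ T.1 ⊆ A ∧ T.2 ⊆ B})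
    (fun T => T.1.1) (fun T => T.1.2) (fun T => T.2.1)
  convert this using 1
  · apply Set.Subset.antisymm
    · intro q hq
      obtain ⟨A', B', h, hq', hA, hB⟩ := h1 q hq
      exact Set.mem_iUnion.2 ⟨⟨(A', B'), h, hA, hB⟩, hq'⟩
    · exact Set.iUnion_subset fun T => T.2.2.1
  · apply Set.Subset.antisymm
    · intro q hq
      obtain ⟨A', B', h, hq', hA, hB⟩ := h2 q hq
      exact Set.mem_iUnion.2 ⟨⟨(A', B'), h, hA, hB⟩, hq'⟩
    · exact Set.iUnion_subset fun T => T.2.2.2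

/-- reversal -/
def op (x : Lat P) : Lat P where
  r A B := x.r B A
  sup A B h := x.sup B A h
  inf A B h := x.inf B A h

@[simp] theorem op_r (x : Lat P) (A B : Set P) : x.op.r A B ↔ x.r B A := Iff.rfl

theorem op_mul (x y : Lat P) : (x * y).op = y.op * x.op := by
  ext A B
  simp only [op_r, mul_r]
  constructor
  · rintro ⟨C, h1, h2⟩; exact ⟨C, h2, h1⟩
  · rintro ⟨C, h1, h2⟩; exact ⟨C, h2, h1⟩

/-- the least closed pair containing `q` on the left -/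
theorem exists_min (x : Lat P) (q : P) : ∃ A B, x.r A B ∧ q ∈ A ∧
    ∀ A' B', x.r A' B' → q ∈ A' → A ⊆ A' ∧ B ⊆ B' := by
  refine ⟨_, _, x.inf (ι := {T : Set P × Set P // x.r T.1 T.2 ∧ q ∈ T.1})
    (fun T => T.1.1) (fun T => T.1.2) (fun T => T.2.1), Set.mem_iInter.2 fun T => T.2.2, ?_⟩
  intro A' B' h hq
  exact ⟨Set.iInter_subset_of_subset ⟨(A', B'), h, hq⟩ le_rfl,
    Set.iInter_subset_of_subset ⟨(A', B'), h, hq⟩ le_rfl⟩

def dom (a : Lat P) (A : Set P) : Prop := ∃ B, a.r A B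
def ran (a : Lat P) (B : Set P) : Prop := ∃ A, a.r A B

@[simp] theorem dom_op (a : Lat P) (A : Set P) : a.op.dom A ↔ a.ran A := Iff.rfl
@[simp] theorem ran_op (a : Lat P) (A : Set P) : a.op.ran A ↔ a.dom A := Iff.rfl

/-- the restriction of `x` to the context `a` on both sides -/
def loc (a x : Lat P) : Lat P where
  r A B := a.ran A ∧ x.r A B ∧ a.dom B
  sup A B h := by
    choose h1 h2 h3 using h
    choose A' hA' using h1
    choose B' hB' using h3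
    exact ⟨⟨_, a.sup _ _ hA'⟩, x.sup _ _ h2, ⟨_, a.sup _ _ hB'⟩⟩
  inf A B h := by
    choose h1 h2 h3 using h
    choose A' hA' using h1
    choose B' hB' using h3
    exact ⟨⟨_, a.inf _ _ hA'⟩, x.inf _ _ h2, ⟨_, a.inf _ _ hB'⟩⟩

theorem loc_r (a x : Lat P) (A B : Set P) :
    (loc a x).r A B ↔ a.ran A ∧ x.r A B ∧ a.dom B := Iff.rfl

/-- `y` lies in the local monoid at `a` -/
def Loc (a y : Lat P) : Prop := a * y = y ∧ y * a = y

theorem Loc.op {a y : Lat P} (h : Loc a y) : Loc a.op y.op :=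
  ⟨by rw [← op_mul, h.2], by rw [← op_mul, h.1]⟩

theorem Loc.mul {a x y : Lat P} (hx : Loc a x) (hy : Loc a y) : Loc a (x * y) :=
  ⟨by rw [← mul_assoc, hx.1], by rw [mul_assoc, hy.2]⟩

theorem dom_of_left {a y : Lat P} (h : a * y = y) {A B : Set P} (hr : y.r A B) : a.dom A := by
  rw [← h] at hr
  obtain ⟨C, h1, -⟩ := hr
  exact ⟨C, h1⟩

theorem ran_of_right {a y : Lat P} (h : y * a = y) {A B : Set P} (hr : y.r A B) : a.ran B := by
  rw [← h] at hr
  obtain ⟨C, -, h2⟩ := hr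
  exact ⟨C, h2⟩

/-- crossing from left to right in the context `a` -/
def cr1 (a x : Lat P) (q q' : P) : Prop :=
  ∀ A B, a.ran A → x.r A B → a.dom B → q ∈ A → q' ∈ B

theorem cr1_mul {a x y : Lat P} (hx : Loc a x) (hy : Loc a y) {q m q' : P}
    (h1 : cr1 a x q m) (h2 : cr1 a y m q') : cr1 a (x * y) q q' := by
  rintro A C hA ⟨B, hB1, hB2⟩ hC hq
  exact h2 B C (ran_of_right hx.2 hB1) hB2 hC (h1 A B hA hB1 (dom_of_left hy.1 hB2) hq)

theorem cr1_left {a y : Lat P} (ha : Loc a a) (hy : Loc a y) {q m q' : P}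
    (h1 : cr1 a a q m) (h2 : cr1 a y m q') : cr1 a y q q' := by
  have := cr1_mul ha hy h1 h2
  rwa [hy.1] at this

theorem cr1_right {a y : Lat P} (ha : Loc a a) (hy : Loc a y) {q m q' : P}
    (h1 : cr1 a y q m) (h2 : cr1 a a m q') : cr1 a y q q' := by
  have := cr1_mul hy ha h1 h2
  rwa [hy.2] at this

theorem exists_pred {a : Lat P} (ha : Loc a a) {S : Set P} (h : a.ran S) :
    ∃ S', a.ran S' ∧ a.r S' S := by
  obtain ⟨A, hA⟩ := h
  rw [← ha.1] at hA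
  obtain ⟨B, h1, h2⟩ := hA
  exact ⟨B, ⟨A, h1⟩, h2⟩

theorem exists_succ {a : Lat P} (ha : Loc a a) {S : Set P} (h : a.dom S) :
    ∃ S', a.dom S' ∧ a.r S S' := exists_pred ha.op h

theorem cr1_dense_left {a y : Lat P} (ha : Loc a a) (hy : Loc a y) {q q' : P}
    (h : cr1 a y q q') : ∃ m, cr1 a a q m ∧ cr1 a y m q' := by
  by_contra hne
  push Not at hne
  obtain ⟨R1, R2, hR, hqR, hmin⟩ := (loc a a).exists_min q
  have hM : ∀ m : R2, ∃ A B, (loc a y).r A B ∧ m.1 ∈ A ∧ q' ∉ B := by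
    intro m
    have h1 : cr1 a a q m.1 := fun A B h1 h2 h3 hq => (hmin A B ⟨h1, h2, h3⟩ hq).2 m.2
    have h2 := hne m.1 h1
    unfold cr1 at h2
    push Not at h2
    obtain ⟨A, B, h1, h2, h3, h4, h5⟩ := h2
    exact ⟨A, B, ⟨h1, h2, h3⟩, h4, h5⟩
  choose A B hAB hA hB using hM
  obtain ⟨h1, h2, h3⟩ := (loc a y).sup A B hAB
  obtain ⟨S', hS'1, hS'2⟩ := exists_pred ha h1
  have h4 : (loc a a).r (S' ∪ R1) ((⋃ i, A i) ∪ R2) :=
    (loc a a).union ⟨hS'1, hS'2, dom_of_left hy.1 h2⟩ hR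
  have h5 : (⋃ i, A i) ∪ R2 = ⋃ i, A i :=
    Set.union_eq_self_of_subset_right fun m hm => Set.mem_iUnion.2 ⟨⟨m, hm⟩, hA _⟩
  rw [h5] at h4
  have h6 : y.r (S' ∪ R1) (⋃ i, B i) := by
    rw [← hy.1]; exact ⟨_, h4.2.1, h2⟩
  obtain ⟨i, hi⟩ := Set.mem_iUnion.1 (h _ _ h4.1 h6 h3 (Or.inr hqR))
  exact hB i hi

theorem cr1_dense_right {a y : Lat P} (ha : Loc a a) (hy : Loc a y) {q q' : P}
    (h : cr1 a y q q') : ∃ m, cr1 a y q m ∧ cr1 a a m q' := by
  by_contra hne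
  push Not at hne
  obtain ⟨R1, R2, hR, hqR, hmin⟩ := (loc a y).exists_min q
  have hM : ∀ m : R2, ∃ A B, (loc a a).r A B ∧ m.1 ∈ A ∧ q' ∉ B := by
    intro m
    have h1 : cr1 a y q m.1 := fun A B h1 h2 h3 hq => (hmin A B ⟨h1, h2, h3⟩ hq).2 m.2
    have h2 := hne m.1 h1
    unfold cr1 at h2
    push Not at h2
    obtain ⟨A, B, h1, h2, h3, h4, h5⟩ := h2
    exact ⟨A, B, ⟨h1, h2, h3⟩, h4, h5⟩
  choose A B hAB hA hB using hM
  obtain ⟨h1, h2, h3⟩ := (loc a a).sup A B hAB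
  -- intersect with the successor of `R2`
  obtain ⟨S', hS'1, hS'2⟩ := exists_succ ha hR.2.2
  have h4 : (loc a a).r (R2 ∩ ⋃ i, A i) (S' ∩ ⋃ i, B i) :=
    (loc a a).inter ⟨ran_of_right hy.2 hR.2.1, hS'2, hS'1⟩ ⟨h1, h2, h3⟩
  have h5 : R2 ∩ ⋃ i, A i = R2 :=
    Set.inter_eq_self_of_subset_left fun m hm => Set.mem_iUnion.2 ⟨⟨m, hm⟩, hA _⟩
  rw [h5] at h4
  have h6 : y.r R1 (S' ∩ ⋃ i, B i) := by
    rw [← hy.2]; exact ⟨_, hR.2.1, h4.2.1⟩
  obtain ⟨i, hi⟩ := Set.mem_iUnion.1 (h _ _ hR.1 h6 h4.2.2 hqR).2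
  exact hB i hi

theorem exists_loop_of_dense {α : Type*} [Finite α] {r : α → α → Prop}
    (ht : ∀ a b c, r a b → r b c → r a c) (hd : ∀ a b, r a b → ∃ m, r a m ∧ r m b)
    {q q' : α} (h : r q q') : ∃ l, r q l ∧ r l l ∧ r l q' := by
  obtain ⟨m, hm, hmin⟩ := exists_minimalFor_of_wellFoundedLT (fun m => r q m ∧ r m q')
    (fun m => ({n | r m n ∧ r n q'} : Set α)) (hd _ _ h)
  obtain ⟨n, hn1, hn2⟩ := hd _ _ hm.2
  have hsub : ({k | r n k ∧ r k q'} : Set α) ⊆ {k | r m k ∧ r k q'} :=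
    fun k hk => ⟨ht _ _ _ hn1 hk.1, hk.2⟩
  have := hmin (j := n) ⟨ht _ _ _ hm.1 hn1, hn2⟩ hsub
  exact ⟨n, ht _ _ _ hm.1 hn1, (this ⟨hn1, hn2⟩).1, hn2⟩

theorem cr1_loop [Finite P] {a : Lat P} (ha : Loc a a) {q q' : P} (h : cr1 a a q q') :
    ∃ l, cr1 a a q l ∧ cr1 a a l l ∧ cr1 a a l q' :=
  exists_loop_of_dense (r := cr1 a a) (fun _ _ _ h1 h2 => cr1_left ha ha h1 h2)
    (fun _ _ h => cr1_dense_left ha ha h) h

theorem cr1_factor [Finite P] {a y : Lat P} (ha : Loc a a) (hy : Loc a y) {q q' : P}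
    (h : cr1 a y q q') : ∃ l f, cr1 a a l l ∧ cr1 a a f f ∧ cr1 a a q l ∧ cr1 a y l f ∧
      cr1 a a f q' := by
  obtain ⟨m, h1, h2⟩ := cr1_dense_left ha hy h
  obtain ⟨l, h3, h4, h5⟩ := cr1_loop ha h1
  obtain ⟨m', h6, h7⟩ := cr1_dense_right ha hy (cr1_left ha hy h5 h2)
  obtain ⟨f, h8, h9, h10⟩ := cr1_loop ha h7
  exact ⟨l, f, h4, h9, h3, cr1_right ha hy h6 h8, h10⟩

theorem cr1_mono {c e x : Lat P} (he : Loc c e) {q q' : P} (h : cr1 c x q q') :
    cr1 e x q q' := by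
  rintro A B ⟨A', hA⟩ hx ⟨B', hB⟩ hq
  exact h A B (ran_of_right he.2 hA) hx (dom_of_left he.1 hB) hq

theorem cr1_up_left {c e : Lat P} (he : Loc c e) {q m q' : P} (h1 : cr1 c c q m)
    (h2 : cr1 e e m q') : cr1 e e q q' := by
  rintro A B ⟨A', hA⟩ hx hB hq
  have hx' := hx
  rw [← he.1] at hx'
  obtain ⟨S, hS1, hS2⟩ := hx'
  refine h2 S B ⟨A', ?_⟩ hS2 hB (h1 A S (ran_of_right he.2 hA) hS1 (dom_of_left he.1 hS2) hq)
  rw [← he.2]; exact ⟨A, hA, hS1⟩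

theorem cr1_up_right {c e : Lat P} (he : Loc c e) {q m q' : P} (h1 : cr1 e e q m)
    (h2 : cr1 c c m q') : cr1 e e q q' := by
  rintro A B hA hx ⟨B', hB⟩ hq
  have hx' := hx
  rw [← he.2] at hx'
  obtain ⟨S, hS1, hS2⟩ := hx'
  refine h2 S B (ran_of_right he.2 hS1) hS2 (dom_of_left he.1 hB) (h1 A S hA hS1 ⟨B', ?_⟩ hq)
  rw [← he.1]; exact ⟨B, hS2, hB⟩

/-- a crossing in context contains a context-free crossing -/
theorem cr1_strict {e : Lat P} (he : Loc e e) {q q' : P} (h : cr1 e e q q') :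
    ∃ l f, (∀ S, e.ran S → e.dom S → q ∈ S → l ∈ S) ∧ (∀ A B, e.r A B → l ∈ A → f ∈ B) ∧
      (∀ S, e.ran S → e.dom S → f ∈ S → q' ∈ S) := by
  by_contra hne
  push Not at hne
  obtain ⟨R1, R2, hR, hqR, hmin⟩ := (loc e e).exists_min q
  -- for every `l ∈ R1` the least pair
  choose A B hAB hlA hABmin using e.exists_min
  have hT := e.sup (ι := R1) (fun l => A l.1) (fun l => B l.1) (fun l => hAB _)
  have hT1 : (⋃ l : R1, A l.1) = R1 := by
    apply Set.Subset.antisymm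
    · exact Set.iUnion_subset fun l => (hABmin l.1 R1 R2 hR.2.1 l.2).1
    · intro l hl; exact Set.mem_iUnion.2 ⟨⟨l, hl⟩, hlA l⟩
  rw [hT1] at hT
  have hK : ∀ f : (⋃ l : R1, B l.1 : Set P), ∃ S, e.ran S ∧ e.dom S ∧ f.1 ∈ S ∧ q' ∉ S := by
    rintro ⟨f, hf⟩
    obtain ⟨l, hl⟩ := Set.mem_iUnion.1 hf
    refine hne l.1 f ?_ ?_
    · intro S h1 h2 hq
      obtain ⟨S', hS'1, hS'2⟩ := exists_succ he h2
      exact (hmin S S' ⟨h1, hS'2, hS'1⟩ hq).1 l.2
    · intro A' B' h' hl'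
      exact (hABmin l.1 A' B' h' hl').2 hl
  choose S hS1 hS2 hS3 hS4 using hK
  choose S' hS'1 hS'2 using fun f => exists_pred he (hS1 f)
  obtain ⟨h1, h2, h3⟩ := (loc e e).sup S' S (fun f => ⟨hS'1 f, hS'2 f, hS2 f⟩)
  have h4 := e.union hT h2
  have h5 : (⋃ l : R1, B l.1) ∪ (⋃ f, S f) = ⋃ f, S f :=
    Set.union_eq_self_of_subset_left fun f hf => Set.mem_iUnion.2 ⟨⟨f, hf⟩, hS3 _⟩
  rw [h5] at h4
  have h6 : e.ran (R1 ∪ ⋃ f, S' f) := by
    obtain ⟨X, hX⟩ := hR.1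
    obtain ⟨Y, hY⟩ := h1
    exact ⟨_, e.union hX hY⟩
  obtain ⟨i, hi⟩ := Set.mem_iUnion.1 (h _ _ h6 h4 h3 (Or.inl hqR))
  exact hS4 i hi

theorem cr1_descend [Finite P] {c e : Lat P} (hc : Loc c c) (hee : Loc e e) (he : Loc c e)
    {q : P} (h : cr1 e e q q) : ∃ l f, cr1 c c l l ∧ cr1 c c f f ∧ cr1 c e l f ∧
      cr1 e e q l ∧ cr1 e e f q := by
  obtain ⟨l0, f0, h1, h2, h3⟩ := cr1_strict hee h
  have h4 : cr1 c e l0 f0 := fun A B _ hx _ hl => h2 A B hx hl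
  obtain ⟨l, f, h5, h6, h7, h8, h9⟩ := cr1_factor hc he h4
  have h10 : cr1 e e q l0 := fun A B hA hx hB hq =>
    h1 B ⟨A, hx⟩ hB (h A B hA hx hB hq)
  have h11 : cr1 e e f0 q := fun A B hA hx hB hq =>
    h A B hA hx hB (h3 A hA ⟨B, hx⟩ hq)
  exact ⟨l, f, h5, h6, h8, cr1_up_right he h10 h7, cr1_up_left he h9 h11⟩

/-- if every loop survives then every crossing survives -/
theorem cr1_of_loops [Finite P] {a z : Lat P} (ha : Loc a a) (hz : Loc a z)
    (h : ∀ l, cr1 a a l l → cr1 a z l l) {q q' : P} (hq : cr1 a a q q') : cr1 a z q q' := by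
  obtain ⟨l, h1, h2, h3⟩ := cr1_loop ha hq
  exact cr1_right ha hz (cr1_left ha hz h1 (h l h2)) h3

theorem le_of_loops [Finite P] {a z : Lat P} (ha : Loc a a) (hz : Loc a z)
    (h : ∀ l, cr1 a a l l → cr1 a z l l) (h' : ∀ l, cr1 a.op a.op l l → cr1 a.op z.op l l)
    {A D : Set P} (hr : z.r A D) : a.r A D := by
  have hr' := hr
  rw [← hz.1, ← hz.2] at hr'
  obtain ⟨B, hB, C, hC, hD⟩ := hr'
  have key : a.r B C := by
    apply a.of_cover
    · intro q hq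
      obtain ⟨A', B', h1, h2, h3⟩ := a.exists_min q
      refine ⟨A', B', h1, h2, ?_, ?_⟩
      · obtain ⟨X, hX⟩ := dom_of_left hz.1 hC
        exact (h3 _ _ hX hq).1
      · intro n hn
        have : cr1 a a q n := fun X Y _ hx _ hq' => (h3 X Y hx hq').2 hn
        exact cr1_of_loops ha hz h this B C ⟨A, hB⟩ hC ⟨D, hD⟩ hq
    · intro q hq
      obtain ⟨B', A', h1, h2, h3⟩ := a.op.exists_min q
      refine ⟨A', B', h1, h2, ?_, ?_⟩
      · intro n hn
        have : cr1 a.op a.op q n := fun X Y _ hx _ hq' => (h3 X Y hx hq').2 hn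
        exact cr1_of_loops ha.op hz.op h' this C B ⟨D, hD⟩ hC ⟨A, hB⟩ hq
      · obtain ⟨X, hX⟩ := ran_of_right hz.2 hC
        exact (h3 _ _ hX hq).1
  have h3 : (a * a * a).r A D := ⟨C, ⟨B, hB, key⟩, hD⟩
  rwa [ha.1, ha.1] at h3

end Lat

end Crest.Agent.R294
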